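import Vale.Agent.P220.R2.H57.Tub

/-!
# P220: Hamiltonian isotopies, intrinsic form

The Hamiltonian is given only on `[0, 1] × T*Q`; it is smooth up to the ends of the interval, and
its differential is tested along curves in `T*Q`.
-/

open Set Filter Topology
open scoped ContDiff

namespace Vale.Agent.P220Z.Top

open Vale.Agent.P220.R2.H57

variable {E : Type} [NormedAddCommGroup E] [InnerProductSpace ℝ E]

/-- `H t`, `0 ≤ t ≤ 1`, is a smooth time-dependent function on `T*Q` with support in one compact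
subset of `T*Q`. Only the values of `H` on `[0, 1] × T*Q` matter. -/
structure IsHamG (Q : Set E) (H : ℝ → E × E → ℝ) : Prop where
  /-- near each point of `[0, 1] × T*Q`, `H` is the restriction of a function that is smooth on
  `[0, 1] × E × E` near this point -/
  smooth : ∀ t ∈ Icc (0 : ℝ) 1, ∀ z ∈ Cot Q, ∃ O ∈ 𝓝 (t, z), ∃ f : ℝ × (E × E) → ℝ,
    ContDiffOn ℝ ∞ f (O ∩ Icc 0 1 ×ˢ univ) ∧
      ∀ y ∈ O, y.1 ∈ Icc (0 : ℝ) 1 → y.2 ∈ Cot Q → f y = H y.1 y.2
  /-- compact support -/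
  supp : ∃ K ⊆ Cot Q, IsCompact K ∧ ∀ t ∈ Icc (0 : ℝ) 1, ∀ z ∈ Cot Q, z ∉ K → H t z = 0

/-- `φ s`, `0 ≤ s ≤ 1`, is the flow on `T*Q` of the Hamiltonian vector field `w` of `H`, given by
`ι_w ω = -dH`; the differential `dH` is evaluated on the velocities of the curves in `T*Q`. -/
def IsHamFlowG (Q : Set E) (H : ℝ → E × E → ℝ) (φ : ℝ → E × E → E × E) : Prop :=
  (∀ z ∈ Cot Q, φ 0 z = z) ∧ ∀ z ∈ Cot Q, ∀ s ∈ Icc (0 : ℝ) 1, φ s z ∈ Cot Q ∧
    ∃ w ∈ Tan (Cot Q) (φ s z), HasDerivWithinAt (fun r => φ r z) w (Icc 0 1) s ∧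
      ∀ c : ℝ → E × E, ContDiff ℝ ∞ c → (∀ t, c t ∈ Cot Q) → c 0 = φ s z →
        HasDerivAt (fun t => H s (c t)) (-om w (deriv c 0)) 0

/-- `L` is the image of the zero section under the time-one map of the flow of a compactly
supported smooth time-dependent Hamiltonian. -/
def HamIsoG (Q : Set E) (L : Set (E × E)) : Prop :=
  ∃ (H : ℝ → E × E → ℝ) (φ : ℝ → E × E → E × E), IsHamG Q H ∧ IsHamFlowG Q H φ ∧
    φ 1 '' {z | z.1 ∈ Q ∧ z.2 = 0} = L

namespace Gen

theorem tan_smul {F : Type} [NormedAddCommGroup F] [NormedSpace ℝ F] {S : Set F} {x v : F}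
    (a : ℝ) (h : v ∈ Tan S x) : a • v ∈ Tan S x := by
  obtain ⟨c, hc, hS, h0, hv⟩ := h
  refine ⟨fun t => c (a * t), hc.comp (contDiff_const.mul contDiff_id), fun t => hS _,
    by simpa using h0, ?_⟩
  have h1 : HasDerivAt c v (a * 0) := by
    rw [mul_zero, ← hv]
    exact (hc.differentiable (by simp) 0).hasDerivAt
  have h2 : HasDerivAt (fun t : ℝ => a * t) a 0 := by
    simpa using (hasDerivAt_id (0 : ℝ)).const_mul a
  exact (h1.scomp (0 : ℝ) h2).deriv

theorem isClosed_cot [FiniteDimensional ℝ E] {n : ℕ} {Q : Set E} (h : IsClosedManifold n Q) :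
    IsClosed (Cot Q) := by
  obtain ⟨U, r, hr, -⟩ := exists_ret h.sub h.compact
  have : Cot Q = (Prod.fst ⁻¹' Q) ∩ {z : E × E | fderiv ℝ r z.1 z.2 = z.2} := by
    ext z
    exact and_congr_right fun hz => hr.mem_Tan hz
  rw [this]
  refine (hr.isClosed.preimage continuous_fst).inter (isClosed_eq ?_ continuous_snd)
  exact ((hr.smooth.continuous_fderiv (by simp)).comp continuous_fst).clm_apply continuous_snd

theorem mem_I (s : ℝ) : Real.smoothTransition s ∈ Icc (0 : ℝ) 1 :=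
  ⟨Real.smoothTransition.nonneg s, Real.smoothTransition.le_one s⟩

end Gen

/-- The intrinsic notion implies the one with a Hamiltonian defined on the ambient space. -/
theorem HamIsoG.toZero [FiniteDimensional ℝ E] {n : ℕ} {Q : Set E} {L : Set (E × E)}
    (hQ : IsClosedManifold n Q) (h : HamIsoG Q L) : HamIsotopicToZero Q L := by
  obtain ⟨H, φ, ⟨hs, K, -, hK, hK0⟩, ⟨h0, hφ⟩, hL⟩ := h
  set β := Real.smoothTransition with hβ
  have hβs : ContDiff ℝ ∞ β := Real.smoothTransition.contDiff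
  have hβd : ContDiff ℝ ∞ (deriv β) := (contDiff_infty_iff_deriv.1 hβs).2
  have hm : ContDiff ℝ ∞ fun y : ℝ × (E × E) => (β y.1, y.2) :=
    (hβs.comp contDiff_fst).prodMk contDiff_snd
  obtain ⟨G, hG, hGe⟩ := glue (S := Prod.snd ⁻¹' Cot Q)
    ((Gen.isClosed_cot hQ).preimage continuous_snd)
    (fun y : ℝ × (E × E) => deriv β y.1 * H (β y.1) y.2) (by
      intro y hy
      obtain ⟨O, hO, f, hf, hfe⟩ := hs _ (Gen.mem_I y.1) y.2 hy
      refine ⟨(fun y : ℝ × (E × E) => (β y.1, y.2)) ⁻¹' O,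
        hm.continuous.continuousAt.preimage_mem_nhds hO,
        fun y => deriv β y.1 * f (β y.1, y.2), ?_, fun x hx hxQ => ?_⟩
      · exact (hβd.comp contDiff_fst).contDiffOn.mul
          (hf.comp hm.contDiffOn fun x hx => ⟨hx, Gen.mem_I _, mem_univ _⟩)
      · beta_reduce
        rw [hfe _ hx (Gen.mem_I _) hxQ])
  obtain ⟨R, hR⟩ := hK.isBounded.exists_norm_le
  refine ⟨G, fun s => φ (β s), ⟨hG, R + 1, fun s z hz hRz => ?_⟩, ⟨fun z hz => ?_, ?_⟩, ?_⟩
  · rw [hGe (s, z) hz, hK0 _ (Gen.mem_I _) z hz, mul_zero]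
    intro hzK
    linarith [hR z hzK, norm_snd_le z]
  · simp only [hβ, Real.smoothTransition.zero]
    exact h0 z hz
  · intro z hz s hsI
    obtain ⟨h1, w, hw, hd, hc⟩ := hφ z hz (β s) (Gen.mem_I s)
    have hb : HasDerivAt β (deriv β s) s := (hβs.differentiable (by simp) s).hasDerivAt
    refine ⟨h1, deriv β s • w, Gen.tan_smul _ hw,
      hd.scomp s hb.hasDerivWithinAt fun t _ => Gen.mem_I t, ?_⟩
    rintro u ⟨c, hcs, hcQ, hc0, rfl⟩
    have h2 := (hc c hcs hcQ hc0).const_mul (deriv β s)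
    have h3 : HasFDerivAt (fun y => G (s, y)) (fderiv ℝ (fun y => G (s, y)) (c 0)) (c 0) :=
      ((hG.comp (contDiff_const.prodMk contDiff_id)).differentiable (by simp) _).hasFDerivAt
    have h4 := h3.comp_hasDerivAt 0 (hcs.differentiable (by simp) 0).hasDerivAt
    have h5 : ((fun y => G (s, y)) ∘ c) = fun t => deriv β s * H (β s) (c t) :=
      funext fun t => hGe (s, c t) (hcQ t)
    rw [h5] at h4
    have h6 := h4.unique h2
    beta_reduce at hc0 ⊢
    rw [← hc0, h6]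
    simp only [om, Prod.smul_fst, Prod.smul_snd, real_inner_smul_left, real_inner_smul_right]
    ring
  · simp only [hβ, Real.smoothTransition.one]
    exact hL

/-- and conversely -/
theorem hamIsoG_of [FiniteDimensional ℝ E] {n : ℕ} {Q : Set E} {L : Set (E × E)}
    (hQ : IsClosedManifold n Q) (h : HamIsotopicToZero Q L) : HamIsoG Q L := by
  obtain ⟨H, φ, ⟨hs, R, hR⟩, ⟨h0, hφ⟩, hL⟩ := h
  refine ⟨fun t z => H (t, z), φ, ⟨fun t _ z _ => ⟨univ, univ_mem, H, hs.contDiffOn,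
    fun _ _ _ _ => rfl⟩, Cot Q ∩ Q ×ˢ Metric.closedBall 0 R, inter_subset_left,
    (hQ.compact.prod (isCompact_closedBall _ _)).inter_left (Gen.isClosed_cot hQ),
    fun t _ z hz hzK => hR t z hz ?_⟩, ⟨h0, fun z hz s hsI => ?_⟩, hL⟩
  · by_contra h1
    exact hzK ⟨hz, hz.1, mem_closedBall_zero_iff.2 (not_le.1 h1).le⟩
  · obtain ⟨h1, w, hw, hd, hc⟩ := hφ z hz s hsI
    refine ⟨h1, w, hw, hd, fun c hcs hcQ hc0 => ?_⟩
    have h3 : HasFDerivAt (fun y => H (s, y)) (fderiv ℝ (fun y => H (s, y)) (c 0)) (c 0) :=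
      ((hs.comp (contDiff_const.prodMk contDiff_id)).differentiable (by simp) _).hasFDerivAt
    have h4 := h3.comp_hasDerivAt 0 (hcs.differentiable (by simp) 0).hasDerivAt
    rw [hc _ ⟨c, hcs, hcQ, hc0, rfl⟩, neg_neg, ← hc0]
    exact h4

end Vale.Agent.P220Z.Top
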