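import Vale.Agent.P220Z.Per.Defs2
import Vale.Agent.P220Z.Cn.Defs

/-!
# P220: the interface between the construction and the obstruction

`B ⊂ EB` is a closed manifold with a free isometric action of a finite group `G`, and
`D b = {x | φ (b, x) ≤ 0}` is an invariant family of compact domains in a Euclidean `G`-space `U`.
The base of the generating family is `B × S(U)`.
-/

open Set
open scoped ContDiff RealInnerProductSpace

namespace Vale.Agent.P220Z.Top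

open Vale.Agent.P220.R2.H57 Vale.Agent.P220Z.Per Vale.Agent.P220Z.Cn

section

variable {G : Type} [Group G]
  {EB : Type} [NormedAddCommGroup EB] [InnerProductSpace ℝ EB]
  {U : Type} [NormedAddCommGroup U] [InnerProductSpace ℝ U]

/-- An invariant family of compact domains `{x | φ (b, x) ≤ 0}` over the free `G`-space `B`, and an
invariant function `s` on `B`. At the critical points of `s` no two boundary points of the domain
have the same outward normal and lie on one normal line. One of the domains is the unit ball. -/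
structure IsDom (β : G →* (EB ≃ₗᵢ[ℝ] EB)) (B : Set EB) (ρ : G →* (U ≃ₗᵢ[ℝ] U))
    (φ : EB × U → ℝ) (s : EB → ℝ) : Prop where
  act : ∀ g, ∀ b ∈ B, β g b ∈ B
  free : ∀ g, ∀ b ∈ B, β g b = b → g = 1
  sφ : ContDiff ℝ ∞ φ
  ss : ContDiff ℝ ∞ s
  invφ : ∀ g, ∀ b ∈ B, ∀ x, φ (β g b, ρ g x) = φ (b, x)
  invs : ∀ g, ∀ b ∈ B, s (β g b) = s b
  bdd : ∃ R, ∀ b ∈ B, ∀ x, R ≤ ‖x‖ → 0 < φ (b, x)
  reg : ∀ b ∈ B, ∀ x, φ (b, x) = 0 → dV φ b x ≠ 0
  round : ∃ b ∈ B, ∀ x, φ (b, x) = ‖x‖ ^ 2 - 1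
  chord : ∀ b ∈ B, (∀ u ∈ Tan B b, fderiv ℝ s b u = 0) → ∀ x x', φ (b, x) = 0 → φ (b, x') = 0 →
    (∃ c : ℝ, 0 < c ∧ dV φ b x' = c • dV φ b x) → (∀ v, dV φ b x v = 0 → ⟪x' - x, v⟫ = 0) → x' = x

/-- The sublevel sets `{F ≤ a}` of the family `F` over `B × S(U)` are the domains of `φ`, and near
their boundary `F` is an increasing affine function of `φ`. -/
structure IsBar (B : Set EB) (φ : EB × U → ℝ) (a : ℝ) (F : Bs EB U × U → ℝ) : Prop where
  low : ∀ z ∈ QtOf U B, ∀ x, -a < F (z, x)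
  lt : ∀ z ∈ QtOf U B, ∀ x, φ (z.fst, x) < 0 → F (z, x) < a
  gt : ∀ z ∈ QtOf U B, ∀ x, 0 < φ (z.fst, x) → a < F (z, x)
  col : ∃ δ > 0, ∃ κ > 0, ∃ R : ℝ, (∀ b ∈ B, ∀ x, R ≤ ‖x‖ → 0 < φ (b, x)) ∧
    ∀ z x, ‖x‖ ≤ R + 1 → -δ ≤ φ (z.fst, x) → F (z, x) = a + κ * φ (z.fst, x)

/-- No family with the domains of `φ` as sublevel sets has a rigid structured stabilisation. -/
def NoRigid (β : G →* (EB ≃ₗᵢ[ℝ] EB)) (B : Set EB) (ρ : G →* (U ≃ₗᵢ[ℝ] U)) (φ : EB × U → ℝ) :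
    Prop :=
  ∀ (a : ℝ) (F : Bs EB U × U → ℝ) (Z : Type) [NormedAddCommGroup Z] [InnerProductSpace ℝ Z]
    [FiniteDimensional ℝ Z] (sg : Bs EB U × Z → Bs EB U) (w : Bs EB U × (Z × Z) → ℝ),
    IsAdm (prodRep β ρ) (QtOf U B) a ρ F → IsBar B φ a F → IsStr (prodRep β ρ) (QtOf U B) sg w →
    IsAdm (prodRep β ρ) (QtOf U B) a (stRep Z ρ) (strF sg w F) →
    IsRigid (QtOf U B) a (strF sg w F) →
    (∀ z ∈ QtOf U B, ∀ X : St U Z, dV (strF sg w F) z X = 0 →
      (|strF sg w F (z, X)| < a ↔ |F (sg (z, X.snd.fst), X.fst)| < a)) → False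

end

/-- The obstruction: a family of domains without a rigid stabilisation. -/
def StObs : Prop :=
  ∃ (G : Type) (_ : Group G) (_ : Fintype G) (EB : Type) (_ : NormedAddCommGroup EB)
    (_ : InnerProductSpace ℝ EB) (_ : FiniteDimensional ℝ EB) (U : Type) (_ : NormedAddCommGroup U)
    (_ : InnerProductSpace ℝ U) (_ : FiniteDimensional ℝ U) (β : G →* (EB ≃ₗᵢ[ℝ] EB))
    (ρ : G →* (U ≃ₗᵢ[ℝ] U)) (m k : ℕ) (B : Set EB) (φ : EB × U → ℝ) (s : EB → ℝ),
    IsClosedManifold m B ∧ Module.finrank ℝ U = k + 2 ∧ IsDom β B ρ φ s ∧ NoRigid β B ρ φ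

/-- The generating families of a family of domains: for each margin `C` a family `F`, all with the
same connected critical set `S` in the window and the same differentials along it. -/
def StFam : Prop :=
  ∀ (G : Type) [Group G] (EB : Type) [NormedAddCommGroup EB] [InnerProductSpace ℝ EB]
    [FiniteDimensional ℝ EB] (U : Type) [NormedAddCommGroup U] [InnerProductSpace ℝ U]
    [FiniteDimensional ℝ U] (β : G →* (EB ≃ₗᵢ[ℝ] EB)) (ρ : G →* (U ≃ₗᵢ[ℝ] U)) (m k : ℕ)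
    (B : Set EB) (φ : EB × U → ℝ) (s : EB → ℝ), IsClosedManifold m B →
    Module.finrank ℝ U = k + 2 → IsDom β B ρ φ s →
    ∃ (S : Set (Bs EB U × U)) (F₀ : Bs EB U × U → ℝ), IsConnected S ∧
      ∀ C : ℝ, ∃ (a : ℝ) (F : Bs EB U × U → ℝ), IsAdm (prodRep β ρ) (QtOf U B) a ρ F ∧
        IsPre (QtOf U B) a C F ∧ Sig (QtOf U B) a F = S ∧
        (∀ y ∈ S, fderiv ℝ F y = fderiv ℝ F₀ y) ∧ IsBar B φ a F

/-- The quotient of a closed manifold by a free action, embedded in a standard Euclidean space. -/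
def StCoverE : Prop :=
  ∀ (G : Type) [Group G] [Fintype G] (E : Type) [NormedAddCommGroup E] [InnerProductSpace ℝ E]
    [FiniteDimensional ℝ E] (α : G →* (E ≃ₗᵢ[ℝ] E)) (n : ℕ) (Qt : Set E), IsClosedManifold n Qt →
    (∀ g, ∀ x ∈ Qt, α g x ∈ Qt) → (∀ g, ∀ x ∈ Qt, α g x = x → g = 1) →
    ∃ (N : ℕ) (Q : Set (EuclideanSpace ℝ (Fin N))) (P : E → EuclideanSpace ℝ (Fin N)),
      IsCover α Qt Q P ∧ IsClosedManifold n Q ∧ ∀ b ∈ Qt, ∀ b' ∈ Qt, P b = P b' → ∃ g, α g b' = b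

end Vale.Agent.P220Z.Top
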