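import Vale.Agent.P220Z.Top.Defs2

/-!
# P220: paths of domains
-/

open Set Filter
open scoped ContDiff RealInnerProductSpace Topology

namespace Vale.Agent.P220Z.Top

variable {U : Type} [NormedAddCommGroup U] [InnerProductSpace ℝ U]

/-- `{φ ≤ 0}` is a bounded domain with smooth boundary -/
structure IsReg (φ : U → ℝ) : Prop where
  smooth : ContDiff ℝ ∞ φ
  bdd : ∃ R, ∀ x, R ≤ ‖x‖ → 0 < φ x
  reg : ∀ x, φ x = 0 → fderiv ℝ φ x ≠ 0

theorem IsPath.isReg {φ₀ φ₁ : U → ℝ} {ψ : ℝ × U → ℝ} (h : IsPath φ₀ φ₁ ψ) {t : ℝ}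
    (ht : t ∈ Icc (0 : ℝ) 1) : IsReg fun x => ψ (t, x) where
  smooth := h.smooth.comp (contDiff_const.prodMk contDiff_id)
  bdd := h.bdd.imp fun _ hR => hR t ht
  reg := h.reg t ht

theorem Joined.left {φ₀ φ₁ : U → ℝ} (h : Joined φ₀ φ₁) : IsReg φ₀ := by
  obtain ⟨ψ, h⟩ := h
  rw [← funext h.zero]
  exact h.isReg ⟨le_rfl, zero_le_one⟩

theorem Joined.right {φ₀ φ₁ : U → ℝ} (h : Joined φ₀ φ₁) : IsReg φ₁ := by
  obtain ⟨ψ, h⟩ := h
  rw [← funext h.one]
  exact h.isReg ⟨zero_le_one, le_rfl⟩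

/-- a path with any compact interval of parameters, in any direction -/
theorem joined_of_family {ψ : ℝ × U → ℝ} (hs : ContDiff ℝ ∞ ψ) (a b : ℝ)
    (hb : ∃ R, ∀ t ∈ uIcc a b, ∀ x, R ≤ ‖x‖ → 0 < ψ (t, x))
    (hr : ∀ t ∈ uIcc a b, ∀ x, ψ (t, x) = 0 → fderiv ℝ (fun y => ψ (t, y)) x ≠ 0) :
    Joined (fun x => ψ (a, x)) fun x => ψ (b, x) := by
  have hm : ∀ t ∈ Icc (0 : ℝ) 1, a + t * (b - a) ∈ uIcc a b := by
    intro t ht
    rcases le_total a b with h | h
    · rw [uIcc_of_le h]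
      constructor <;> nlinarith [ht.1, ht.2]
    · rw [uIcc_of_ge h]
      constructor <;> nlinarith [ht.1, ht.2]
  obtain ⟨R, hR⟩ := hb
  refine ⟨fun y => ψ (a + y.1 * (b - a), y.2), hs.comp (by fun_prop), fun x => by simp,
    fun x => by simp, ⟨R, fun t ht x hx => hR _ (hm t ht) x hx⟩, fun t ht x hx => hr _ (hm t ht) x hx⟩

theorem IsReg.joined {φ : U → ℝ} (h : IsReg φ) : Joined φ φ :=
  ⟨fun y => φ y.2, h.smooth.comp contDiff_snd, fun _ => rfl, fun _ => rfl,
    h.bdd.imp fun _ hR _ _ => hR, fun _ _ => h.reg⟩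

theorem Joined.symm {φ₀ φ₁ : U → ℝ} (h : Joined φ₀ φ₁) : Joined φ₁ φ₀ := by
  obtain ⟨ψ, h⟩ := h
  have h1 := joined_of_family h.smooth 1 0
    (by rw [uIcc_of_ge zero_le_one]; exact h.bdd) (by rw [uIcc_of_ge zero_le_one]; exact h.reg)
  rwa [funext h.zero, funext h.one] at h1

theorem Joined.trans {φ₀ φ₁ φ₂ : U → ℝ} (h : Joined φ₀ φ₁) (h' : Joined φ₁ φ₂) :
    Joined φ₀ φ₂ := by
  have hs := h.right.smooth
  obtain ⟨ψ, h⟩ := h
  obtain ⟨ψ', h'⟩ := h'
  have hS : ∀ t, Real.smoothTransition t ∈ Icc (0 : ℝ) 1 := fun t =>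
    ⟨Real.smoothTransition.nonneg t, Real.smoothTransition.le_one t⟩
  have hc : ContDiff ℝ ∞ Real.smoothTransition := Real.smoothTransition.contDiff
  have key : ∀ t : ℝ, (∃ u ∈ Icc (0 : ℝ) 1, ∀ x, ψ (Real.smoothTransition (2 * t), x) +
      ψ' (Real.smoothTransition (2 * t - 1), x) - φ₁ x = ψ (u, x)) ∨
      ∃ u ∈ Icc (0 : ℝ) 1, ∀ x, ψ (Real.smoothTransition (2 * t), x) +
      ψ' (Real.smoothTransition (2 * t - 1), x) - φ₁ x = ψ' (u, x) := by
    intro t
    rcases le_total (2 * t) 1 with h1 | h1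
    · refine Or.inl ⟨_, hS (2 * t), fun x => ?_⟩
      rw [Real.smoothTransition.zero_of_nonpos (x := 2 * t - 1) (by linarith), h'.zero]
      ring
    · refine Or.inr ⟨_, hS (2 * t - 1), fun x => ?_⟩
      rw [Real.smoothTransition.one_of_one_le h1, h.one]
      ring
  obtain ⟨R, hR⟩ := h.bdd
  obtain ⟨R', hR'⟩ := h'.bdd
  refine ⟨fun y => ψ (Real.smoothTransition (2 * y.1), y.2) +
    ψ' (Real.smoothTransition (2 * y.1 - 1), y.2) - φ₁ y.2, ?_, fun x => ?_, fun x => ?_,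
    ⟨max R R', fun t _ x hx => ?_⟩, fun t _ x hx => ?_⟩
  · exact ((h.smooth.comp ((hc.comp (by fun_prop)).prodMk contDiff_snd)).add
      (h'.smooth.comp ((hc.comp (by fun_prop)).prodMk contDiff_snd))).sub (hs.comp contDiff_snd)
  · simp only
    rw [Real.smoothTransition.zero_of_nonpos (by norm_num),
      Real.smoothTransition.zero_of_nonpos (by norm_num), h.zero, h'.zero]
    ring
  · simp only
    rw [Real.smoothTransition.one_of_one_le (by norm_num),
      Real.smoothTransition.one_of_one_le (by norm_num), h.one, h'.one]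
    ring
  · rcases key t with ⟨u, hu, h1⟩ | ⟨u, hu, h1⟩
    · exact (h1 x).symm ▸ hR u hu x ((le_max_left _ _).trans hx)
    · exact (h1 x).symm ▸ hR' u hu x ((le_max_right _ _).trans hx)
  · rcases key t with ⟨u, hu, h1⟩ | ⟨u, hu, h1⟩
    · simp only [funext h1]
      exact h.reg u hu x ((h1 x).symm.trans hx)
    · simp only [funext h1]
      exact h'.reg u hu x ((h1 x).symm.trans hx)

/-- the straight line -/
theorem joined_of_line {φ₀ φ₁ : U → ℝ} (h₀ : ContDiff ℝ ∞ φ₀) (h₁ : ContDiff ℝ ∞ φ₁)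
    (hb : ∃ R, ∀ x, R ≤ ‖x‖ → 0 < φ₀ x ∧ 0 < φ₁ x)
    (hr : ∀ t ∈ Icc (0 : ℝ) 1, ∀ x, (1 - t) * φ₀ x + t * φ₁ x = 0 →
      ∃ v, (1 - t) * fderiv ℝ φ₀ x v + t * fderiv ℝ φ₁ x v ≠ 0) : Joined φ₀ φ₁ := by
  obtain ⟨R, hR⟩ := hb
  refine ⟨fun y => (1 - y.1) * φ₀ y.2 + y.1 * φ₁ y.2, ?_, fun x => by simp, fun x => by simp,
    ⟨R, fun t ht x hx => ?_⟩, fun t ht x hx h => ?_⟩
  · exact ((contDiff_const.sub contDiff_fst).mul (h₀.comp contDiff_snd)).add
      (contDiff_fst.mul (h₁.comp contDiff_snd))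
  · obtain ⟨h1, h2⟩ := hR x hx
    rcases ht.1.eq_or_lt with h3 | h3
    · simp [← h3, h1]
    · have := mul_nonneg (sub_nonneg.2 ht.2) h1.le
      have := mul_pos h3 h2
      simp only
      linarith
  · obtain ⟨v, hv⟩ := hr t ht x hx
    have h1 := (((h₀.differentiable (by simp) x).hasFDerivAt.const_mul (1 - t)).add
      ((h₁.differentiable (by simp) x).hasFDerivAt.const_mul t)).fderiv
    refine hv ?_
    have h2 := congrArg (fun L : U →L[ℝ] ℝ => L v) (h1.symm.trans h)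
    simpa using h2

/-- both functions increase in one direction where their signs differ -/
theorem joined_of_dir {φ₀ φ₁ : U → ℝ} (h₀ : ContDiff ℝ ∞ φ₀) (h₁ : ContDiff ℝ ∞ φ₁)
    (hb : ∃ R, ∀ x, R ≤ ‖x‖ → 0 < φ₀ x ∧ 0 < φ₁ x)
    (hr : ∀ x, φ₀ x * φ₁ x ≤ 0 → ∃ v, 0 < fderiv ℝ φ₀ x v ∧ 0 < fderiv ℝ φ₁ x v) :
    Joined φ₀ φ₁ := by
  refine joined_of_line h₀ h₁ hb fun t ht x hx => ?_
  rcases ht.1.eq_or_lt with h3 | h3
  · obtain ⟨v, hv, -⟩ := hr x (by
      have : φ₀ x = 0 := by simpa [← h3] using hx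
      simp [this])
    exact ⟨v, by simpa [← h3] using hv.ne'⟩
  · obtain ⟨v, hv, hv'⟩ := hr x (by
      have h4 : t * (φ₀ x * φ₁ x) = -((1 - t) * φ₀ x ^ 2) := by linear_combination φ₀ x * hx
      have h5 := mul_nonneg (sub_nonneg.2 ht.2) (sq_nonneg (φ₀ x))
      by_contra h6
      have := mul_pos h3 (not_le.1 h6)
      linarith)
    have := mul_nonneg (sub_nonneg.2 ht.2) hv.le
    have := mul_pos h3 hv'
    exact ⟨v, by linarith⟩

/-- a positive multiple -/
theorem IsReg.joined_mul {φ k : U → ℝ} (h : IsReg φ) (hk : ContDiff ℝ ∞ k) (hp : ∀ x, 0 < k x) :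
    Joined φ fun x => k x * φ x := by
  obtain ⟨R, hR⟩ := h.bdd
  refine joined_of_dir h.smooth (hk.mul h.smooth)
    ⟨R, fun x hx => ⟨hR x hx, mul_pos (hp x) (hR x hx)⟩⟩ fun x hx => ?_
  have h0 : φ x = 0 := by
    by_contra h1
    have := mul_pos (hp x) (mul_self_pos.2 h1)
    nlinarith
  obtain ⟨v, hv⟩ : ∃ v, 0 < fderiv ℝ φ x v := by
    obtain ⟨v, hv⟩ := ContinuousLinearMap.exists_ne_zero (h.reg x h0)
    rcases lt_or_gt_of_ne hv with h1 | h1
    · exact ⟨-v, by simpa using h1⟩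
    · exact ⟨v, h1⟩
  refine ⟨v, hv, ?_⟩
  rw [((hk.differentiable (by simp) x).hasFDerivAt.fun_mul
    (h.smooth.differentiable (by simp) x).hasFDerivAt).fderiv]
  simpa [h0] using mul_pos (hp x) hv

/-- pull-back by a family of proper submersions -/
theorem Joined.comp {U' : Type} [NormedAddCommGroup U'] [InnerProductSpace ℝ U']
    {φ₀ φ₁ : U → ℝ} (h : Joined φ₀ φ₁) {Θ : ℝ × U' → U} (hs : ContDiff ℝ ∞ Θ)
    (hp : ∀ R, ∃ R', ∀ t ∈ Icc (0 : ℝ) 1, ∀ x, R' ≤ ‖x‖ → R ≤ ‖Θ (t, x)‖)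
    (hd : ∀ t ∈ Icc (0 : ℝ) 1, ∀ x, Function.Surjective (fderiv ℝ (fun y => Θ (t, y)) x)) :
    Joined (fun x => φ₀ (Θ (0, x))) fun x => φ₁ (Θ (1, x)) := by
  obtain ⟨ψ, h⟩ := h
  obtain ⟨R, hR⟩ := h.bdd
  obtain ⟨R', hR'⟩ := hp R
  refine ⟨fun y => ψ (y.1, Θ y), h.smooth.comp (contDiff_fst.prodMk hs), fun x => h.zero _,
    fun x => h.one _, ⟨R', fun t ht x hx => hR t ht _ (hR' t ht x hx)⟩, fun t ht x hx h0 => ?_⟩
  refine h.reg t ht _ hx ?_
  ext v
  obtain ⟨u, rfl⟩ := hd t ht x v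
  have h1 : DifferentiableAt ℝ (fun y => Θ (t, y)) x :=
    (hs.comp (contDiff_const.prodMk contDiff_id)).differentiable (by simp) x
  have h2 := (((h.isReg ht).smooth.differentiable (by simp) (Θ (t, x))).hasFDerivAt.comp x
    h1.hasFDerivAt).fderiv
  exact congrArg (fun L : U' →L[ℝ] ℝ => L u) (h2.symm.trans h0)

/-- pull-back by a linear isomorphism -/
theorem Joined.comp_equiv {U' : Type} [NormedAddCommGroup U'] [InnerProductSpace ℝ U']
    {φ₀ φ₁ : U → ℝ} (h : Joined φ₀ φ₁) (e : U' ≃L[ℝ] U) :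
    Joined (fun x => φ₀ (e x)) fun x => φ₁ (e x) := by
  refine h.comp (Θ := fun y => e y.2) (e.contDiff.comp contDiff_snd) (fun R => ?_) fun t _ x => ?_
  · refine ⟨(‖(e.symm : U →L[ℝ] U')‖ + 1) * |R|, fun t _ x hx => ?_⟩
    have h1 := (e.symm : U →L[ℝ] U').le_opNorm (e x)
    simp only [ContinuousLinearEquiv.coe_coe, ContinuousLinearEquiv.symm_apply_apply] at h1
    have h2 := norm_nonneg (e.symm : U →L[ℝ] U')
    have h3 := norm_nonneg (e x)
    have h4 : |R| ≤ ‖e x‖ := by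
      by_contra h5
      nlinarith [not_le.1 h5]
    exact (le_abs_self R).trans h4
  · simpa [e.fderiv] using e.surjective

/-- translation -/
theorem IsReg.joined_add {φ : U → ℝ} (h : IsReg φ) (c : U) : Joined φ fun x => φ (x + c) := by
  have h1 := h.joined.comp (Θ := fun y : ℝ × U => y.2 + y.1 • c) (by fun_prop) (fun R => ?_)
    fun t _ x => ?_
  · simpa using h1
  · refine ⟨R + ‖c‖, fun t ht x hx => ?_⟩
    have h2 : ‖t • c‖ ≤ ‖c‖ := by
      rw [norm_smul, Real.norm_of_nonneg ht.1]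
      exact mul_le_of_le_one_left (norm_nonneg _) ht.2
    have h3 := norm_sub_le (x + t • c) (t • c)
    rw [add_sub_cancel_right] at h3
    simp only
    linarith
  · simp only [fderiv_add_const, fderiv_fun_id]
    exact Function.surjective_id

theorem fderiv_normSq (x v : U) : fderiv ℝ (fun y : U => ‖y‖ ^ 2) x v = 2 * ⟪x, v⟫ := by
  rw [(hasStrictFDerivAt_norm_sq x).hasFDerivAt.fderiv]
  simp

theorem contDiff_normSq : ContDiff ℝ ∞ fun y : U => ‖y‖ ^ 2 := contDiff_norm_sq ℝ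

/-- A domain that is star-shaped about the origin is joined to the unit ball. -/
theorem joined_ball_of_star [FiniteDimensional ℝ U] {φ : U → ℝ} (hs : ContDiff ℝ ∞ φ)
    (hb : ∃ R, ∀ x, R ≤ ‖x‖ → 0 < φ x) (h0 : φ 0 < 0)
    (hr : ∀ x, φ x = 0 → 0 < fderiv ℝ φ x x) : Joined φ fun x => ‖x‖ ^ 2 - 1 := by
  obtain ⟨R, hR⟩ := hb
  have hdc : Continuous fun x => fderiv ℝ φ x x :=
    (hs.continuous_fderiv (by simp)).clm_apply continuous_id
  have hB := isCompact_closedBall (0 : U) R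
  obtain ⟨ε, hε, hε'⟩ : ∃ ε > 0, ∀ x, φ x ≤ 0 → fderiv ℝ φ x x ≤ 0 → φ x ≤ -ε := by
    have hK : IsCompact (Metric.closedBall (0 : U) R ∩
        ({x | φ x ≤ 0} ∩ {x | fderiv ℝ φ x x ≤ 0})) :=
      hB.inter_right ((isClosed_le hs.continuous continuous_const).inter
        (isClosed_le hdc continuous_const))
    have hm : ∀ x, φ x ≤ 0 → x ∈ Metric.closedBall (0 : U) R := fun x hx =>
      mem_closedBall_zero_iff.2 (le_of_not_ge fun h => absurd (hR x h) hx.not_gt)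
    obtain ⟨x, hx, hx'⟩ := hK.exists_isMaxOn ⟨0, hm 0 h0.le, h0.le, by simp⟩
      hs.continuous.continuousOn
    have h1 : φ x < 0 := lt_of_le_of_ne hx.2.1 fun h => absurd (hr x h) (not_lt.2 hx.2.2)
    exact ⟨-φ x, by linarith, fun y h2 h3 => by simpa using hx' ⟨hm y h2, h2, h3⟩⟩
  obtain ⟨C, hC⟩ := hB.exists_bound_of_continuousOn hdc.continuousOn
  obtain ⟨K, hK1, hK⟩ : ∃ K : ℝ, 1 ≤ K ∧ K * Real.exp (-(K * ε)) * (|C| + 2) < 2 := by
    have h1 := (Real.tendsto_pow_mul_exp_neg_atTop_nhds_zero 1).comp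
      (tendsto_id.atTop_mul_const hε)
    have h1' := h1.mul_const ((|C| + 2) / ε)
    rw [zero_mul] at h1'
    have h2 := h1'.eventually (gt_mem_nhds (show (0 : ℝ) < 2 by norm_num))
    obtain ⟨K, hK1, hK2⟩ := ((eventually_ge_atTop (1 : ℝ)).and h2).exists
    refine ⟨K, hK1, ?_⟩
    have h3 : K * Real.exp (-(K * ε)) * (|C| + 2) =
        (K * ε) ^ 1 * Real.exp (-(K * ε)) * ((|C| + 2) / ε) := by field_simp
    rw [h3]
    exact hK2
  have hE : ContDiff ℝ ∞ fun x => Real.exp (K * φ x) := (contDiff_const.mul hs).exp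
  have hEd : ∀ x v, fderiv ℝ (fun x => Real.exp (K * φ x)) x v =
      Real.exp (K * φ x) * (K * fderiv ℝ φ x v) := by
    intro x v
    rw [((hs.differentiable (by simp) x).hasFDerivAt.const_mul K).exp.fderiv]
    simp
  have hfd : ∀ (u τ : ℝ) (x : U), fderiv ℝ (fun y => u * Real.exp (K * φ y) + τ * ‖y‖ ^ 2 - 1) x x =
      u * (Real.exp (K * φ x) * (K * fderiv ℝ φ x x)) + 2 * (τ * ‖x‖ ^ 2) := by
    intro u τ x
    rw [((((hE.differentiable (by simp) x).hasFDerivAt.const_mul u).fun_add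
      ((contDiff_normSq.differentiable (by simp) x).hasFDerivAt.const_mul τ)).sub_const 1).fderiv]
    simp only [add_apply, smul_apply, smul_eq_mul, hEd,
      fderiv_normSq, real_inner_self_eq_norm_sq]
    ring
  have main : ∀ (u τ : ℝ) (x : U), 0 ≤ u → u ≤ 1 → 0 ≤ τ → φ x ≤ 0 →
      u * Real.exp (K * φ x) + τ * ‖x‖ ^ 2 - 1 = 0 →
      fderiv ℝ (fun y => u * Real.exp (K * φ y) + τ * ‖y‖ ^ 2 - 1) x ≠ 0 := by
    intro u τ x hu hu1 hτ hx h h1
    have h2 := hfd u τ x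
    rw [h1, zero_apply] at h2
    have he := Real.exp_pos (K * φ x)
    have h3 : 0 ≤ τ * ‖x‖ ^ 2 := by positivity
    rcases lt_or_ge 0 (fderiv ℝ φ x x) with h4 | h4
    · have h5 : 0 < Real.exp (K * φ x) * (K * fderiv ℝ φ x x) := by positivity
      rcases hu.eq_or_lt with h6 | h6
      · rw [← h6] at h h2
        linarith
      · nlinarith [mul_pos h6 h5]
    · have h5 : Real.exp (K * φ x) ≤ Real.exp (-(K * ε)) :=
        Real.exp_le_exp.2 (by nlinarith [hε' x hx h4])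
      have h6 : -|C| ≤ fderiv ℝ φ x x := by
        have h7 := hC x
          (mem_closedBall_zero_iff.2 (le_of_not_ge fun h => absurd (hR x h) hx.not_gt))
        rw [Real.norm_eq_abs] at h7
        linarith [le_abs_self C, neg_abs_le (fderiv ℝ φ x x)]
      have h7 : u * Real.exp (K * φ x) ≤ Real.exp (-(K * ε)) :=
        (mul_le_of_le_one_left he.le hu1).trans h5
      have h8 : 0 ≤ u * Real.exp (K * φ x) := by positivity
      have h9 := abs_nonneg C
      have h10 : u * Real.exp (K * φ x) * (K * (|C| + 2)) ≤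
          Real.exp (-(K * ε)) * (K * (|C| + 2)) :=
        mul_le_mul_of_nonneg_right h7 (by positivity)
      have h11 : 0 ≤ u * Real.exp (K * φ x) * (K * (fderiv ℝ φ x x + |C|)) :=
        mul_nonneg h8 (mul_nonneg (by linarith) (by linarith))
      have h12 : 0 ≤ u * Real.exp (K * φ x) * (K - 1) := mul_nonneg h8 (by linarith)
      nlinarith
  obtain ⟨r, hr0, hr'⟩ : ∃ r > 0, ∀ x : U, ‖x‖ ≤ r → φ x ≤ 0 := by
    obtain ⟨r, hr0, h⟩ := Metric.eventually_nhds_iff.1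
      (hs.continuous.continuousAt.eventually (gt_mem_nhds h0))
    exact ⟨r / 2, by positivity, fun x hx => (h (by rw [dist_zero_right]; linarith)).le⟩
  have hT : 0 < 1 / r ^ 2 := by positivity
  have hgt : ∀ x, 0 < φ x → 1 < Real.exp (K * φ x) := fun x hx =>
    Real.one_lt_exp_iff.2 (by positivity)
  have j1 : Joined φ fun x => 1 * Real.exp (K * φ x) + 0 * ‖x‖ ^ 2 - 1 := by
    simp only [one_mul, zero_mul, add_zero]
    refine joined_of_dir hs (hE.sub contDiff_const)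
      ⟨R, fun x hx => ⟨hR x hx, sub_pos.2 (hgt x (hR x hx))⟩⟩ fun x hx => ?_
    have h1 : φ x = 0 := by
      rcases lt_trichotomy (φ x) 0 with h | h | h
      · have : Real.exp (K * φ x) < 1 := Real.exp_lt_one_iff.2 (by nlinarith)
        nlinarith
      · exact h
      · nlinarith [hgt x h]
    refine ⟨x, hr x h1, ?_⟩
    rw [fderiv_sub_const, hEd]
    have := hr x h1
    positivity
  have j2 := joined_of_family (ψ := fun y : ℝ × U =>
      1 * Real.exp (K * φ y.2) + y.1 * ‖y.2‖ ^ 2 - 1)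
    (((contDiff_const.mul (hE.comp contDiff_snd)).add
      (contDiff_fst.mul (contDiff_normSq.comp contDiff_snd))).sub contDiff_const) 0 (1 / r ^ 2)
    ⟨R, fun t ht x hx => by
      rw [uIcc_of_le hT.le] at ht
      have := mul_nonneg ht.1 (sq_nonneg ‖x‖)
      have := hgt x (hR x hx)
      simp only
      linarith⟩
    (fun t ht x hx => by
      rw [uIcc_of_le hT.le] at ht
      refine main 1 t x zero_le_one le_rfl ht.1 (le_of_not_gt fun h => ?_) hx
      have := mul_nonneg ht.1 (sq_nonneg ‖x‖)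
      have := hgt x h
      simp only at hx
      linarith)
  have hsq : ∀ x : U, r < ‖x‖ → 1 < 1 / r ^ 2 * ‖x‖ ^ 2 := by
    intro x hx
    rw [one_div, inv_mul_eq_div, one_lt_div (by positivity)]
    gcongr
  have j3 := joined_of_family (ψ := fun y : ℝ × U =>
      y.1 * Real.exp (K * φ y.2) + 1 / r ^ 2 * ‖y.2‖ ^ 2 - 1)
    (((contDiff_fst.mul (hE.comp contDiff_snd)).add
      (contDiff_const.mul (contDiff_normSq.comp contDiff_snd))).sub contDiff_const) 1 0
    ⟨r + 1, fun t ht x hx => by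
      rw [uIcc_of_ge zero_le_one] at ht
      have := mul_nonneg ht.1 (Real.exp_pos (K * φ x)).le
      have := hsq x (by linarith)
      simp only
      linarith⟩
    (fun t ht x hx => by
      rw [uIcc_of_ge zero_le_one] at ht
      refine main t _ x ht.1 ht.2 hT.le (hr' x (le_of_not_gt fun h => ?_)) hx
      have := mul_nonneg ht.1 (Real.exp_pos (K * φ x)).le
      have := hsq x h
      simp only at hx
      linarith)
  have j4 : Joined (fun x : U => 0 * Real.exp (K * φ x) + 1 / r ^ 2 * ‖x‖ ^ 2 - 1)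
      fun x => ‖x‖ ^ 2 - 1 := by
    simp only [zero_mul, zero_add]
    refine joined_of_dir ((contDiff_const.mul contDiff_normSq).sub contDiff_const)
      (contDiff_normSq.sub contDiff_const) ⟨r + 2, fun x hx => ⟨?_, ?_⟩⟩ fun x hx => ⟨x, ?_, ?_⟩
    · linarith [hsq x (by linarith)]
    · nlinarith
    · have h1 : x ≠ 0 := by
        rintro rfl
        norm_num at hx
      rw [fderiv_sub_const, ((contDiff_normSq.differentiable (by simp) x).hasFDerivAt.const_mul
        (1 / r ^ 2)).fderiv]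
      simp only [smul_apply, smul_eq_mul, fderiv_normSq,
        real_inner_self_eq_norm_sq]
      have := norm_pos_iff.2 h1
      positivity
    · have h1 : x ≠ 0 := by
        rintro rfl
        norm_num at hx
      rw [fderiv_sub_const, fderiv_normSq, real_inner_self_eq_norm_sq]
      have := norm_pos_iff.2 h1
      positivity
  exact j1.trans (j2.trans (j3.trans j4))

end Vale.Agent.P220Z.Top
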