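import Vale.Agent.P220Z.Top.Defs2
import Vale.Agent.P220Z.Cn.Reg
import Vale.Agent.P220.R2.H180.Sphere

/-!
# P220: the base `S³ × S¹⁷`, an invariant function and a cut-off function
-/

open Set
open scoped ContDiff RealInnerProductSpace

namespace Vale.Agent.P220Z.Top

open Vale.Agent.P220.R2 Vale.Agent.P220Z.Cn Vale.Agent.P220Z.Def
open Vale.Agent.P220.R2.H57 (Tan IsSubmanifold IsClosedManifold)

namespace Bf

/-- the unit sphere is a closed manifold -/
theorem sphere_closed (E : Type) [NormedAddCommGroup E] [InnerProductSpace ℝ E]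
    [FiniteDimensional ℝ E] (k : ℕ) (hE : Module.finrank ℝ E = k + 2) :
    IsClosedManifold (k + 1) {z : E | ‖z‖ = 1} := by
  have e : {z : E | ‖z‖ = 1} = Metric.sphere 0 1 := by
    ext z
    simp
  refine ⟨?_, e ▸ isCompact_sphere _ _, e ▸ isConnected_sphere ?_ _ zero_le_one⟩
  · have h1 : IsSubmanifold (k + 1 + Module.finrank ℝ ℝ) (univ : Set E) := fun x _ =>
      ⟨OpenPartialHomeomorph.refl E, ⊤, mem_univ _, contDiffOn_id, contDiffOn_id,
        by rw [finrank_top, hE, Module.finrank_self], fun y _ => by simp⟩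
    have h2 := stReg E ℝ (k + 1) univ univ (fun z => ‖z‖ ^ 2 - 1) h1 isOpen_univ
      ((contDiff_norm_sq ℝ).sub contDiff_const) fun q _ _ h0 v => by
        have hn : ‖q‖ ^ 2 = 1 := sub_eq_zero.1 h0
        refine ⟨(v / 2) • q, ⟨fun t => q + t • (v / 2) • q, by fun_prop, fun t => mem_univ _,
          by simp, ?_⟩, ?_⟩
        · simpa using (((hasDerivAt_id (0 : ℝ)).smul_const ((v / 2) • q)).const_add q).deriv
        · rw [((hasStrictFDerivAt_norm_sq q).hasFDerivAt.sub_const 1).fderiv]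
          simp only [smul_apply, innerSL_apply_apply, real_inner_smul_right,
            real_inner_self_eq_norm_sq, hn]
          simp only [nsmul_eq_mul, Nat.cast_ofNat]
          ring
    convert h2 using 1
    ext q
    simp only [mem_ofPred_eq, mem_univ, true_and]
    rw [sub_eq_zero, pow_eq_one_iff_of_nonneg (norm_nonneg _) two_ne_zero]
  · rw [← Module.finrank_eq_rank, hE]
    norm_cast
    omega

theorem finrank_eq (n : ℕ) : Module.finrank ℝ (EuclideanSpace ℂ (Fin n)) = 2 * n := by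
  rw [finrank_real_of_complex, finrank_euclideanSpace, Fintype.card_fin]

theorem closed : IsClosedManifold 20 B5 :=
  stBase _ (EuclideanSpace ℂ (Fin 9)) 3 16 _
    (sphere_closed (EuclideanSpace ℂ (Fin 2)) 2 (finrank_eq 2)) (finrank_eq 9)

/-- the cut-off function -/
theorem exists_tau {G EB : Type} [Group G] [Finite G] [NormedAddCommGroup EB]
    [InnerProductSpace ℝ EB] (β : G →* (EB ≃ₗᵢ[ℝ] EB)) {B : Set EB} (hB : IsCompact B)
    {q : EB → ℝ} (hq : ContDiff ℝ ∞ q) (h0 : ∀ b, 0 ≤ q b)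
    (h : ∀ g, ∀ b ∈ B, q b = 0 → q (β g b) = 0 → g = 1) :
    ∃ τ : EB → ℝ, ContDiff ℝ ∞ τ ∧ (∀ b, τ b ∈ Icc (0 : ℝ) 1) ∧
      (∀ g, ∀ b ∈ B, τ b ≠ 0 → τ (β g b) ≠ 0 → g = 1) ∧ ∀ b, q b = 0 → τ b = 1 := by
  have h1 : ∀ g, ∃ ε : ℝ, 0 < ε ∧ (g ≠ 1 → ∀ b ∈ B, ε ≤ q b + q (β g b)) := fun g => by
    by_cases hg : g = 1
    · exact ⟨1, one_pos, fun h => (h hg).elim⟩
    obtain ⟨ε, h2, h3⟩ := hB.exists_forall_le' (f := fun b => q b + q (β g b)) (a := 0)
      (hq.continuous.add (hq.continuous.comp (β g).continuous)).continuousOn fun b hb => by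
        by_contra h4
        exact hg (h g b hb (by linarith [h0 b, h0 (β g b)]) (by linarith [h0 b, h0 (β g b)]))
    exact ⟨ε, h2, fun _ => h3⟩
  choose ε h2 h3 using h1
  obtain ⟨g₀, h4⟩ := Finite.exists_min ε
  have h5 : ∀ b, Real.smoothTransition (1 - 2 / ε g₀ * q b) ≠ 0 → 2 * q b < ε g₀ := fun b hb => by
    have h6 := not_le.1 (mt Real.smoothTransition.zero_of_nonpos hb)
    rwa [sub_pos, div_mul_eq_mul_div, div_lt_one (h2 g₀)] at h6
  refine ⟨fun b => Real.smoothTransition (1 - 2 / ε g₀ * q b),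
    Real.smoothTransition.contDiff.comp (contDiff_const.sub (contDiff_const.mul hq)),
    fun b => ⟨Real.smoothTransition.nonneg _, Real.smoothTransition.le_one _⟩,
    fun g b hb k1 k2 => ?_, fun b hb => by simp [hb]⟩
  by_contra hg
  linarith [h5 _ k1, h5 _ k2, h3 g hg b hb, h4 g]

/-! ### roots of unity -/

theorem om_add (a b : ZMod 5) : ((om (a + b) : Circle) : ℂ) = (om a : ℂ) * (om b : ℂ) := by
  simp [om, AddChar.map_add_eq_mul]

theorem om_zero : ((om 0 : Circle) : ℂ) = 1 := by simp [om]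

theorem om_inj {a b : ZMod 5} (h : ((om a : Circle) : ℂ) = (om b : ℂ)) : a = b :=
  ZMod.injective_toCircle (Subtype.ext h)

theorem om_pow (a : ZMod 5) : ((om a : Circle) : ℂ) ^ 5 = 1 := by
  have h : a + a + a + a + a = 0 := by
    revert a
    decide
  rw [← om_zero, ← h, om_add, om_add, om_add, om_add]
  ring

theorem om_surj {x : ℂ} (hx : x ^ 5 = 1) : ∃ a, ((om a : Circle) : ℂ) = x := by
  obtain ⟨i, -, hi⟩ := (Complex.isPrimitiveRoot_exp 5 (by norm_num)).eq_pow_of_pow_eq_one hx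
  refine ⟨(i : ZMod 5), ?_⟩
  rw [om, ZMod.toCircle_natCast, ← hi, ← Complex.exp_nat_mul]
  congr 1
  ring

theorem om_conj (a : ZMod 5) : (starRingEnd ℂ) ((om a : Circle) : ℂ) * (om a : ℂ) = 1 := by
  rw [← Complex.normSq_eq_conj_mul_self, Circle.normSq_coe, Complex.ofReal_one]

theorem eq_zero_of_real {a : ZMod 5} {w : ℂ} (h0 : w ≠ 0) (h1 : w.im = 0)
    (h2 : (((om a : Circle) : ℂ) * w).im = 0) : a = 0 := by
  have h3 := Complex.conj_eq_iff_im.2 h2
  rw [map_mul, Complex.conj_eq_iff_im.2 h1] at h3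
  have h4 := om_conj a
  rw [mul_right_cancel₀ h0 h3, ← om_add, ← om_zero] at h4
  have h5 : ∀ b : ZMod 5, b + b = 0 → b = 0 := by decide
  exact h5 a (om_inj h4)

theorem exists_real {w : ℂ} (h : (w ^ 5).im = 0) : ∃ a, (((om a : Circle) : ℂ) * w).im = 0 := by
  by_cases h0 : w = 0
  · exact ⟨0, by simp [h0]⟩
  have h1 := Complex.conj_eq_iff_im.2 h
  obtain ⟨k, hk⟩ := om_surj (x := (starRingEnd ℂ) w / w)
    (by rw [div_pow, ← map_pow, h1, div_self (pow_ne_zero _ h0)])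
  refine ⟨k + k + k, Complex.conj_eq_iff_im.1 ?_⟩
  rw [eq_div_iff h0] at hk
  have h2 := om_conj k
  have h3 := om_pow k
  rw [om_add, om_add, map_mul, map_mul, map_mul, ← hk]
  generalize ((om k : Circle) : ℂ) = x at *
  generalize (starRingEnd ℂ) x = y at *
  linear_combination (-y ^ 3 * x * w) * h3 + (x ^ 3 * w * (y ^ 2 * x ^ 2 + y * x + 1)) * h2

/-! ### the invariant function -/

variable {n : ℕ}

/-- the function on one factor -/
noncomputable def f (z : EuclideanSpace ℂ (Fin n)) : ℝ :=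
  ∑ j : Fin n, (10 * (j : ℕ) * ‖z j‖ ^ 2 + (z j ^ 5).re)

/-- the square of the distance to the real points -/
noncomputable def q (z : EuclideanSpace ℂ (Fin n)) : ℝ := ∑ j, (z j).im ^ 2

theorem smooth_co (j : Fin n) : ContDiff ℝ ∞ fun z : EuclideanSpace ℂ (Fin n) => z j :=
  (PiLp.proj (𝕜 := ℝ) 2 (fun _ : Fin n => ℂ) j).contDiff

theorem smooth_f : ContDiff ℝ ∞ (f (n := n)) :=
  ContDiff.sum fun j _ => (contDiff_const.mul ((smooth_co j).norm_sq ℝ)).add
    (Complex.reCLM.contDiff.comp ((smooth_co j).pow 5))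

theorem smooth_q : ContDiff ℝ ∞ (q (n := n)) :=
  ContDiff.sum fun j _ => (Complex.imCLM.contDiff.comp (smooth_co j)).pow 2

theorem q_nonneg (z : EuclideanSpace ℂ (Fin n)) : 0 ≤ q z :=
  Finset.sum_nonneg fun _ _ => sq_nonneg _

theorem q_eq_zero {z : EuclideanSpace ℂ (Fin n)} : q z = 0 ↔ ∀ j, (z j).im = 0 := by
  rw [q, Finset.sum_eq_zero_iff_of_nonneg fun _ _ => sq_nonneg _]
  simp

theorem f_smul (a : ZMod 5) (z : EuclideanSpace ℂ (Fin n)) :
    f (((om a : Circle) : ℂ) • z) = f z := by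
  refine Finset.sum_congr rfl fun j _ => ?_
  rw [PiLp.smul_apply, smul_eq_mul, norm_mul, Circle.norm_coe, one_mul, mul_pow, om_pow, one_mul]

theorem exists_ne {z : EuclideanSpace ℂ (Fin n)} (hz : ‖z‖ = 1) : ∃ j, z j ≠ 0 := by
  by_contra h
  push Not at h
  have : z = 0 := by
    ext j
    simp [h j]
  simp [this] at hz

theorem zero_of_q {a : ZMod 5} {z : EuclideanSpace ℂ (Fin n)} (hz : ‖z‖ = 1) (h1 : q z = 0)
    (h2 : q (((om a : Circle) : ℂ) • z) = 0) : a = 0 := by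
  obtain ⟨j, hj⟩ := exists_ne hz
  exact eq_zero_of_real hj (q_eq_zero.1 h1 j) (q_eq_zero.1 h2 j)

theorem zero_of_fix {a : ZMod 5} {z : EuclideanSpace ℂ (Fin n)} (hz : ‖z‖ = 1)
    (h : ((om a : Circle) : ℂ) • z = z) : a = 0 := by
  obtain ⟨j, hj⟩ := exists_ne hz
  have h1 : ((om a : Circle) : ℂ) * z j = z j := congrArg (fun y => y j) h
  exact om_inj (by rw [om_zero]; exact (mul_eq_right₀ hj).1 h1)

theorem inner_mul (a w : ℂ) : inner ℝ w (a * w) = a.re * ‖w‖ ^ 2 := by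
  rw [Complex.inner, mul_assoc, Complex.mul_conj, Complex.re_mul_ofReal, Complex.normSq_eq_norm_sq]

theorem fderiv_f (z : EuclideanSpace ℂ (Fin n)) (a : Fin n → ℂ) :
    fderiv ℝ f z (WithLp.toLp 2 fun j => a j * z j) =
      ∑ j : Fin n, (20 * (j : ℕ) * (a j).re * ‖z j‖ ^ 2 + 5 * (a j * z j ^ 5).re) := by
  set u : EuclideanSpace ℂ (Fin n) := WithLp.toLp 2 fun j => a j * z j with hu
  have h1 : HasDerivAt (fun t : ℝ => z + t • u) u 0 := by
    simpa using ((hasDerivAt_id (0 : ℝ)).smul_const u).const_add z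
  have h2 : HasDerivAt (fun t : ℝ => f (z + t • u)) (fderiv ℝ f z u) 0 := by
    have h3 : HasFDerivAt f (fderiv ℝ f z) (z + (0 : ℝ) • u) := by
      rw [zero_smul, add_zero]
      exact (smooth_f.differentiable (by simp) z).hasFDerivAt
    exact h3.comp_hasDerivAt (0 : ℝ) h1
  refine h2.unique (HasDerivAt.fun_sum fun j _ => ?_)
  have h4 : HasDerivAt (fun t : ℝ => (z + t • u) j) (a j * z j) 0 :=
    (PiLp.proj (𝕜 := ℝ) 2 (fun _ : Fin n => ℂ) j).hasFDerivAt.comp_hasDerivAt (0 : ℝ) h1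
  have h5 := (h4.norm_sq.const_mul (10 * ((j : ℕ) : ℝ))).add
    (Complex.reCLM.hasFDerivAt.comp_hasDerivAt (0 : ℝ) (h4.fun_pow 5))
  refine h5.congr_deriv ?_
  rw [zero_smul, add_zero, inner_mul, Complex.reCLM_apply]
  have h6 : ((5 : ℕ) : ℂ) * z j ^ (5 - 1) * (a j * z j) = ((5 : ℝ) : ℂ) * (a j * z j ^ 5) := by
    push_cast
    ring
  rw [h6, Complex.re_ofReal_mul]
  ring

/-- the critical points on the sphere have real coordinates, up to a root of unity -/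
theorem crit {z : EuclideanSpace ℂ (Fin n)} (hz : ‖z‖ = 1)
    (h : ∀ u, inner ℝ z u = (0 : ℝ) → fderiv ℝ f z u = 0) :
    ∃ a, q (((om a : Circle) : ℂ) • z) = 0 := by
  have key : ∀ a : Fin n → ℂ, ∑ j, (a j).re * ‖z j‖ ^ 2 = 0 →
      ∑ j : Fin n, (20 * (j : ℕ) * (a j).re * ‖z j‖ ^ 2 + 5 * (a j * z j ^ 5).re) = 0 := fun a ha => by
    rw [← fderiv_f]
    refine h _ ?_
    rw [PiLp.inner_apply, ← ha]
    exact Finset.sum_congr rfl fun j _ => inner_mul _ _
  have sg : ∀ (F : Fin n → ℂ → ℝ), (∀ i, F i 0 = 0) → ∀ j c,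
      ∑ i, F i ((Pi.single j c : Fin n → ℂ) i) = F j c := fun F hF j c => by
    rw [Finset.sum_eq_single j (fun i _ hi => by rw [Pi.single_eq_of_ne hi, hF])
      fun h => (h (Finset.mem_univ j)).elim, Pi.single_eq_same]
  obtain ⟨j, hj⟩ := exists_ne hz
  have h1 : (z j ^ 5).im = 0 := by
    have h2 := key (Pi.single j Complex.I) (by
      rw [sg (fun i c => c.re * ‖z i‖ ^ 2) (by simp)]
      simp)
    rw [sg (fun i c => 20 * (i : ℕ) * c.re * ‖z i‖ ^ 2 + 5 * (c * z i ^ 5).re) (by simp)] at h2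
    simpa using h2
  have h3 : ∀ i, |(z i ^ 5).re| ≤ ‖z i‖ ^ 2 := fun i => by
    refine (Complex.abs_re_le_norm _).trans ?_
    rw [norm_pow]
    exact pow_le_pow_of_le_one (norm_nonneg _) (hz ▸ PiLp.norm_apply_le z i) (by norm_num)
  have h4 : ∀ l, l ≠ j → z l = 0 := fun l hl => by
    by_contra h5
    have h6 := key ((Pi.single j ((‖z l‖ ^ 2 : ℝ) : ℂ) : Fin n → ℂ) -
      (Pi.single l ((‖z j‖ ^ 2 : ℝ) : ℂ) : Fin n → ℂ)) (by
        simp only [Pi.sub_apply, Complex.sub_re, sub_mul, Finset.sum_sub_distrib]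
        rw [sg (fun i c => c.re * ‖z i‖ ^ 2) (by simp), sg (fun i c => c.re * ‖z i‖ ^ 2) (by simp),
          Complex.ofReal_re, Complex.ofReal_re]
        ring)
    simp only [Pi.sub_apply, Complex.sub_re, sub_mul, mul_sub, Finset.sum_sub_distrib,
      Finset.sum_add_distrib] at h6
    rw [sg (fun i c => 20 * (i : ℕ) * c.re * ‖z i‖ ^ 2) (by simp),
      sg (fun i c => 20 * (i : ℕ) * c.re * ‖z i‖ ^ 2) (by simp),
      sg (fun i c => 5 * (c * z i ^ 5).re) (by simp),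
      sg (fun i c => 5 * (c * z i ^ 5).re) (by simp), Complex.ofReal_re, Complex.ofReal_re,
      Complex.re_ofReal_mul, Complex.re_ofReal_mul] at h6
    have a1 : 0 < ‖z j‖ ^ 2 := pow_pos (norm_pos_iff.2 hj) 2
    have a2 : 0 < ‖z l‖ ^ 2 := pow_pos (norm_pos_iff.2 h5) 2
    have a3 := abs_le.1 (h3 j)
    have a4 := abs_le.1 (h3 l)
    have a5 := mul_pos a1 a2
    rcases Nat.lt_or_gt_of_ne (Fin.val_ne_of_ne hl) with h7 | h7
    · have h8 : ((l : ℕ) : ℝ) + 1 ≤ (j : ℕ) := by exact_mod_cast h7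
      nlinarith [mul_le_mul_of_nonneg_left a3.1 a2.le, mul_le_mul_of_nonneg_left a4.2 a1.le,
        mul_le_mul_of_nonneg_right h8 a5.le]
    · have h8 : ((j : ℕ) : ℝ) + 1 ≤ (l : ℕ) := by exact_mod_cast h7
      nlinarith [mul_le_mul_of_nonneg_left a3.2 a2.le, mul_le_mul_of_nonneg_left a4.1 a1.le,
        mul_le_mul_of_nonneg_right h8 a5.le]
  obtain ⟨a, ha⟩ := exists_real h1
  refine ⟨a, q_eq_zero.2 fun l => ?_⟩
  by_cases hl : l = j
  · rw [hl]
    exact ha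
  · simp [h4 l hl]

/-! ### the product -/

theorem smooth_fst : ContDiff ℝ ∞ fun b : EB5 => b.fst :=
  (WithLp.prodContinuousLinearEquiv 2 ℝ (EuclideanSpace ℂ (Fin 2))
    (EuclideanSpace ℂ (Fin 9))).contDiff.fst

theorem smooth_snd : ContDiff ℝ ∞ fun b : EB5 => b.snd :=
  (WithLp.prodContinuousLinearEquiv 2 ℝ (EuclideanSpace ℂ (Fin 2))
    (EuclideanSpace ℂ (Fin 9))).contDiff.snd

theorem β_fst (g : G5) (b : EB5) : (β5 g b).fst = ((om g.toAdd.1 : Circle) : ℂ) • b.fst := rfl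

theorem β_snd (g : G5) (b : EB5) : (β5 g b).snd = ((om g.toAdd.2 : Circle) : ℂ) • b.snd := rfl

theorem eq_one {g : G5} (h1 : g.toAdd.1 = 0) (h2 : g.toAdd.2 = 0) : g = 1 :=
  Multiplicative.toAdd.injective (Prod.ext h1 h2)

theorem curve {s : EB5 → ℝ} (hs : ContDiff ℝ ∞ s) {b : EB5}
    (h : ∀ u ∈ Tan B5 b, fderiv ℝ s b u = 0)
    {c : ℝ → EuclideanSpace ℂ (Fin 2) × EuclideanSpace ℂ (Fin 9)} (hc : ContDiff ℝ ∞ c)
    (hB : ∀ t, WithLp.toLp 2 (c t) ∈ B5) (h0 : WithLp.toLp 2 (c 0) = b) :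
    HasDerivAt (fun t => s (WithLp.toLp 2 (c t))) 0 0 := by
  have h1 : ContDiff ℝ ∞ fun t => (WithLp.toLp 2 (c t) : EB5) :=
    (WithLp.prodContinuousLinearEquiv 2 ℝ _ _).symm.contDiff.comp hc
  have h2 : HasFDerivAt s (fderiv ℝ s b) (WithLp.toLp 2 (c 0)) :=
    h0 ▸ (hs.differentiable (by simp) _).hasFDerivAt
  have h3 := h2.comp_hasDerivAt (0 : ℝ) (h1.differentiable (by simp) 0).hasDerivAt
  rwa [h _ ⟨_, h1, hB, h0, rfl⟩] at h3

theorem line {z u : EuclideanSpace ℂ (Fin n)} {c : ℝ → EuclideanSpace ℂ (Fin n)} (h0 : c 0 = z)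
    (hc : HasDerivAt c u 0) : HasDerivAt (fun t => f (c t)) (fderiv ℝ f z u) 0 := by
  have h2 : HasFDerivAt f (fderiv ℝ f z) (c 0) :=
    h0 ▸ (smooth_f.differentiable (by simp) _).hasFDerivAt
  exact h2.comp_hasDerivAt (0 : ℝ) hc

end Bf

open Bf in
theorem stB5 : StB5 := by
  have hs : ContDiff ℝ ∞ fun b : EB5 => f b.fst + f b.snd :=
    (smooth_f.comp smooth_fst).add (smooth_f.comp smooth_snd)
  have hz : ∀ b : EB5, q b.fst + q b.snd = 0 ↔ q b.fst = 0 ∧ q b.snd = 0 := fun b =>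
    add_eq_zero_iff_of_nonneg (q_nonneg _) (q_nonneg _)
  obtain ⟨τ, t1, t2, t3, t4⟩ := exists_tau β5 closed.compact
    ((smooth_q.comp smooth_fst).add (smooth_q.comp smooth_snd))
    (fun b => add_nonneg (q_nonneg _) (q_nonneg _)) fun g b hb k1 k2 =>
      eq_one (zero_of_q hb.1 ((hz _).1 k1).1 ((hz _).1 k2).1)
        (zero_of_q hb.2 ((hz _).1 k1).2 ((hz _).1 k2).2)
  refine ⟨closed, fun b => f b.fst + f b.snd, τ, fun g b hb => ⟨?_, ?_⟩, fun g b hb h => ?_, hs, t1,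
    fun g b _ => ?_, t2, t3, fun b hb h => ?_, ?_⟩
  · rw [β_fst, norm_smul, Circle.norm_coe, one_mul, hb.1]
  · rw [β_snd, norm_smul, Circle.norm_coe, one_mul, hb.2]
  · exact eq_one (zero_of_fix hb.1 (congrArg (fun y : EB5 => y.fst) h))
      (zero_of_fix hb.2 (congrArg (fun y : EB5 => y.snd) h))
  · rw [β_fst, β_snd, f_smul, f_smul]
  · obtain ⟨a₁, h1⟩ := crit hb.1 fun u hu => by
      obtain ⟨c, c1, c2, -, c3, c4⟩ := H180.curve_sph hb.1 hu
      have h2 := curve hs h (c := fun t => (c t, b.snd)) (c1.prodMk contDiff_const)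
        (fun t => ⟨H180.mem_Sph.1 (c2 t), hb.2⟩) (by rw [c3]; rfl)
      exact ((line c3 c4).add_const (f b.snd)).unique h2
    obtain ⟨a₂, h2⟩ := crit hb.2 fun u hu => by
      obtain ⟨c, c1, c2, -, c3, c4⟩ := H180.curve_sph hb.2 hu
      have h2 := curve hs h (c := fun t => (b.fst, c t)) (contDiff_const.prodMk c1)
        (fun t => ⟨hb.1, H180.mem_Sph.1 (c2 t)⟩) (by rw [c3]; rfl)
      exact ((line c3 c4).const_add (f b.fst)).unique h2
    exact ⟨Multiplicative.ofAdd (a₁, a₂), t4 _ ((hz _).2 ⟨h1, h2⟩)⟩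
  · refine ⟨WithLp.toLp 2 (PiLp.single 2 0 1, PiLp.single 2 0 1), ⟨by simp, by simp⟩,
      t4 _ ((hz _).2 ⟨q_eq_zero.2 fun j => ?_, q_eq_zero.2 fun j => ?_⟩)⟩
    · by_cases hj : j = 0 <;> simp [hj]
    · by_cases hj : j = 0 <;> simp [hj]

end Vale.Agent.P220Z.Top
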