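import Vale.Agent.P220Z.Top.Iso
import Vale.Agent.P220Z.Top.B5
import Vale.Agent.P220Z.Top.Join
import Vale.Agent.P220Z.Rig.Defs

/-!
# P220: covers of free actions, spreading a homotopy over the base, the retraction
-/

open Set Filter Metric
open scoped ContDiff RealInnerProductSpace Topology

namespace Vale.Agent.P220Z.Top

section

variable {G : Type} [Group G] [Fintype G]
  {EB : Type} [NormedAddCommGroup EB] [InnerProductSpace ℝ EB]
  {U : Type} [NormedAddCommGroup U] [InnerProductSpace ℝ U]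

omit [Fintype G] in
theorem rep_mul (ρ : G →* (U ≃ₗᵢ[ℝ] U)) (g h : G) (x : U) : ρ (g * h) x = ρ g (ρ h x) := by
  rw [map_mul]
  rfl

omit [Fintype G] in
theorem rep_one (ρ : G →* (U ≃ₗᵢ[ℝ] U)) (x : U) : ρ 1 x = x := by
  rw [map_one]
  rfl

omit [Fintype G] in
theorem rep_inv_left (ρ : G →* (U ≃ₗᵢ[ℝ] U)) (g : G) (x : U) : ρ g⁻¹ (ρ g x) = x := by
  rw [← rep_mul, inv_mul_cancel, rep_one]

omit [Fintype G] in
theorem rep_inv_right (ρ : G →* (U ≃ₗᵢ[ℝ] U)) (g : G) (x : U) : ρ g (ρ g⁻¹ x) = x := by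
  rw [← rep_mul, mul_inv_cancel, rep_one]

/-- a finite cover by the sets `{la n = 1}`; the supports are disjoint from their translates -/
theorem exists_cover (β : G →* (EB ≃ₗᵢ[ℝ] EB)) {B : Set EB} (hB : IsCompact B)
    (hf : ∀ g, ∀ b ∈ B, β g b = b → g = 1) :
    ∃ (k : ℕ) (la : Fin k → EB → ℝ), (∀ n, Continuous (la n)) ∧ (∀ n b, la n b ∈ Icc (0 : ℝ) 1) ∧
      (∀ n g, ∀ b ∈ B, la n b ≠ 0 → la n (β g b) ≠ 0 → g = 1) ∧ ∀ b ∈ B, ∃ n, la n b = 1 := by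
  have h1 : ∀ g, ∃ ε : ℝ, 0 < ε ∧ (g ≠ 1 → ∀ b ∈ B, ε ≤ dist (β g b) b) := fun g => by
    by_cases hg : g = 1
    · exact ⟨1, one_pos, fun h => (h hg).elim⟩
    obtain ⟨ε, h2, h3⟩ := hB.exists_forall_le' (f := fun b => dist (β g b) b) (a := 0)
      ((β g).continuous.dist continuous_id).continuousOn fun b hb =>
        dist_pos.2 fun h => hg (hf g b hb h)
    exact ⟨ε, h2, fun _ => h3⟩
  choose ε h2 h3 using h1
  obtain ⟨g₀, h4⟩ := Finite.exists_min ε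
  have hε := h2 g₀
  obtain ⟨t, -, ht, hc⟩ := hB.finite_cover_balls (e := ε g₀ / 4) (by positivity)
  obtain ⟨k, c, hk⟩ := ht.fin_embedding
  have h5 : ∀ x y : EB, max 0 (min 1 (2 - 4 / ε g₀ * dist x y)) ≠ 0 → dist x y < ε g₀ / 2 := by
    intro x y h
    by_contra h6
    refine h (max_eq_left ((min_le_right _ _).trans ?_))
    rw [sub_nonpos, div_mul_eq_mul_div, le_div_iff₀ hε]
    linarith [not_lt.1 h6]
  refine ⟨k, fun n b => max 0 (min 1 (2 - 4 / ε g₀ * dist b (c n))), fun n => by fun_prop,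
    fun n b => ⟨le_max_left _ _, max_le zero_le_one (min_le_left _ _)⟩, fun n g b hb k1 k2 => ?_,
    fun b hb => ?_⟩
  · by_contra hg
    linarith [h5 _ _ k1, h5 _ _ k2, h3 g hg b hb, h4 g, dist_triangle_right (β g b) b (c n)]
  · obtain ⟨y, hy, hb'⟩ := mem_iUnion₂.1 (hc hb)
    obtain ⟨n, rfl⟩ : y ∈ range c := hk ▸ hy
    refine ⟨n, ?_⟩
    have h6 : 4 / ε g₀ * dist b (c n) ≤ 1 := by
      rw [div_mul_eq_mul_div, div_le_one hε]
      linarith [mem_ball.1 hb']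
    simp only
    rw [min_eq_left (by linarith), max_eq_right zero_le_one]

omit [Fintype G] in
theorem exists_unique_label (β : G →* (EB ≃ₗᵢ[ℝ] EB)) {B : Set EB}
    (hact : ∀ g, ∀ b ∈ B, β g b ∈ B) {la : EB → ℝ}
    (hd : ∀ g, ∀ b ∈ B, la b ≠ 0 → la (β g b) ≠ 0 → g = 1) {b : EB} (hb : b ∈ B) :
    ∃ g₀, ∀ g ≠ g₀, la (β g b) = 0 := by
  by_cases h : ∃ g₀, la (β g₀ b) ≠ 0
  · obtain ⟨g₀, h₀⟩ := h
    refine ⟨g₀, fun g hg => by_contra fun h1 => hg (mul_inv_eq_one.1 (hd _ _ (hact g₀ b hb) h₀ ?_))⟩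
    rwa [rep_mul, rep_inv_left]
  · exact ⟨1, fun g _ => by_contra fun h1 => h ⟨g, h1⟩⟩

/-- one factor -/
noncomputable def fac (β : G →* (EB ≃ₗᵢ[ℝ] EB)) (ρ : G →* (U ≃ₗᵢ[ℝ] U)) (C : ℝ × U → U)
    (la : EB → ℝ) (y : ℝ × EB × U) : U :=
  C (0, y.2.2) + ∑ g, (ρ g⁻¹ (C (y.1 * la (β g y.2.1), ρ g y.2.2)) - C (0, y.2.2))

theorem fac_cont (β : G →* (EB ≃ₗᵢ[ℝ] EB)) (ρ : G →* (U ≃ₗᵢ[ℝ] U)) {C : ℝ × U → U}
    (hC : Continuous C) {la : EB → ℝ} (hl : Continuous la) : Continuous (fac β ρ C la) := by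
  unfold fac
  fun_prop

theorem fac_equi (β : G →* (EB ≃ₗᵢ[ℝ] EB)) (ρ : G →* (U ≃ₗᵢ[ℝ] U)) {C : ℝ × U → U}
    (h0 : ∀ g x, C (0, ρ g x) = ρ g (C (0, x))) (la : EB → ℝ) (h : G) (u : ℝ) (b : EB) (x : U) :
    fac β ρ C la (u, β h b, ρ h x) = ρ h (fac β ρ C la (u, b, x)) := by
  simp only [fac, map_add, map_sum, map_sub, h0]
  congr 1
  refine Fintype.sum_equiv (Equiv.mulRight h) _ _ fun g => ?_
  rw [Equiv.coe_mulRight, rep_mul, rep_mul, mul_inv_rev, rep_mul, rep_inv_right]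

theorem fac_eq (β : G →* (EB ≃ₗᵢ[ℝ] EB)) (ρ : G →* (U ≃ₗᵢ[ℝ] U)) {C : ℝ × U → U}
    (h0 : ∀ g x, C (0, ρ g x) = ρ g (C (0, x))) {la : EB → ℝ} {b : EB} {g₀ : G}
    (h : ∀ g ≠ g₀, la (β g b) = 0) (u : ℝ) (x : U) :
    fac β ρ C la (u, b, x) = ρ g₀⁻¹ (C (u * la (β g₀ b), ρ g₀ x)) := by
  simp only [fac]
  rw [Finset.sum_eq_single g₀ (fun g _ hg => by rw [h g hg, mul_zero, h0, rep_inv_left, sub_self])
    fun h => (h (Finset.mem_univ _)).elim]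
  abel

/-- the composite of conjugates of the maps `C (t, ·)` -/
noncomputable def word (ρ : G →* (U ≃ₗᵢ[ℝ] U)) (C : ℝ × U → U) (l : List (G × ℝ)) (x : U) : U :=
  l.foldr (fun p y => ρ p.1⁻¹ (C (p.2, ρ p.1 y))) x

/-- A homotopy that starts at an equivariant map is spread over the base. -/
theorem exists_spread (β : G →* (EB ≃ₗᵢ[ℝ] EB)) (ρ : G →* (U ≃ₗᵢ[ℝ] U)) {B : Set EB}
    (hB : IsCompact B) (hact : ∀ g, ∀ b ∈ B, β g b ∈ B) (hf : ∀ g, ∀ b ∈ B, β g b = b → g = 1)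
    {C : ℝ × U → U} (hC : Continuous C) (h0 : ∀ g x, C (0, ρ g x) = ρ g (C (0, x))) (k₀ : ℕ) :
    ∃ (k : ℕ) (H : ℝ × EB × U → U), k₀ ≤ k ∧ Continuous H ∧
      (∀ g u b x, H (u, β g b, ρ g x) = ρ g (H (u, b, x))) ∧
      ∀ b ∈ B, ∃ l : List (G × ℝ), l.length = k ∧ (∀ p ∈ l, p.2 ∈ Icc (0 : ℝ) 1) ∧
        (∃ p ∈ l, p.2 = 1) ∧ ∀ u x, H (u, b, x) = word ρ C (l.map fun p => (p.1, u * p.2)) x := by
  obtain ⟨k, la, h1, h2, h3, h4⟩ := exists_cover β hB hf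
  have key : ∀ L : List (EB → ℝ), (∀ f ∈ L, Continuous f ∧ (∀ b, f b ∈ Icc (0 : ℝ) 1) ∧
      ∀ g, ∀ b ∈ B, f b ≠ 0 → f (β g b) ≠ 0 → g = 1) →
      ∃ H : ℝ × EB × U → U, Continuous H ∧
        (∀ g u b x, H (u, β g b, ρ g x) = ρ g (H (u, b, x))) ∧
        ∀ b ∈ B, ∃ l : List (G × ℝ), l.length = L.length ∧ (∀ p ∈ l, p.2 ∈ Icc (0 : ℝ) 1) ∧
          ((∃ f ∈ L, f b = 1) → ∃ p ∈ l, p.2 = 1) ∧
          ∀ u x, H (u, b, x) = word ρ C (l.map fun p => (p.1, u * p.2)) x := by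
    intro L
    induction L with
    | nil => exact fun _ => ⟨fun y => y.2.2, by fun_prop, fun _ _ _ _ => rfl, fun b _ =>
        ⟨[], rfl, by simp, by simp, fun _ _ => rfl⟩⟩
    | cons f L ih =>
      intro hL
      obtain ⟨H, c1, c2, c3⟩ := ih fun f' hf' => hL f' (List.mem_cons_of_mem _ hf')
      obtain ⟨f1, f2, f3⟩ := hL f List.mem_cons_self
      refine ⟨fun y => fac β ρ C f (y.1, y.2.1, H y), (fac_cont β ρ hC f1).comp (by fun_prop),
        fun g u b x => by simp only [c2, fac_equi β ρ h0], fun b hb => ?_⟩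
      obtain ⟨l, l1, l2, l3, l4⟩ := c3 b hb
      obtain ⟨g₀, hg₀⟩ := exists_unique_label β hact f3 hb
      refine ⟨(g₀, f (β g₀ b)) :: l, by simp [l1], ?_, ?_, fun u x => ?_⟩
      · intro p hp
        rcases List.mem_cons.1 hp with rfl | hp
        · exact f2 _
        · exact l2 p hp
      · rintro ⟨f', hf', h5⟩
        rcases List.mem_cons.1 hf' with rfl | hf'
        · refine ⟨_, List.mem_cons_self, ?_⟩
          by_cases h6 : g₀ = 1
          · simpa [h6, rep_one] using h5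
          · have h7 := hg₀ 1 (Ne.symm h6)
            rw [rep_one, h5] at h7
            exact absurd h7 one_ne_zero
        · obtain ⟨p, hp, h6⟩ := l3 ⟨f', hf', h5⟩
          exact ⟨p, List.mem_cons_of_mem _ hp, h6⟩
      · simp only
        rw [fac_eq β ρ h0 hg₀, l4]
        rfl
  obtain ⟨H, c1, c2, c3⟩ := key (List.ofFn la ++ List.replicate k₀ 0) fun f hf' => by
    rcases List.mem_append.1 hf' with h | h
    · obtain ⟨n, rfl⟩ := List.mem_ofFn.1 h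
      exact ⟨h1 n, h2 n, h3 n⟩
    · rw [List.eq_of_mem_replicate h]
      exact ⟨continuous_zero, fun _ => ⟨le_rfl, zero_le_one⟩, fun _ _ _ h => (h rfl).elim⟩
  refine ⟨k + k₀, H, by omega, c1, c2, fun b hb => ?_⟩
  obtain ⟨l, l1, l2, l3, l4⟩ := c3 b hb
  obtain ⟨n, hn⟩ := h4 b hb
  exact ⟨l, by simpa using l1, l2,
    l3 ⟨la n, List.mem_append_left _ (List.mem_ofFn.2 ⟨n, rfl⟩), hn⟩, l4⟩

omit [Fintype G] in
/-- words preserve invariant sets that are preserved by the letters -/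
theorem word_mem (ρ : G →* (U ≃ₗᵢ[ℝ] U)) {C : ℝ × U → U} {E : Set U}
    (hE : ∀ g, ∀ x ∈ E, ρ g x ∈ E) {l : List (G × ℝ)} (h : ∀ p ∈ l, ∀ x ∈ E, C (p.2, x) ∈ E)
    {x : U} (hx : x ∈ E) : word ρ C l x ∈ E := by
  induction l with
  | nil => exact hx
  | cons p l ih =>
    exact hE _ _ (h p List.mem_cons_self _
      (hE _ _ (ih fun q hq => h q (List.mem_cons_of_mem _ hq))))

omit [Fintype G] in
/-- one letter that maps `E` to `Z` is enough -/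
theorem word_mem_of_letter (ρ : G →* (U ≃ₗᵢ[ℝ] U)) {C : ℝ × U → U} {E Z : Set U}
    (hE : ∀ g, ∀ x ∈ E, ρ g x ∈ E) (hZ : ∀ g, ∀ x ∈ Z, ρ g x ∈ Z) {l : List (G × ℝ)}
    (h : ∀ p ∈ l, ∀ x ∈ E, C (p.2, x) ∈ E) (h' : ∀ p ∈ l, ∀ x ∈ Z, C (p.2, x) ∈ Z)
    (h1 : ∃ p ∈ l, ∀ x ∈ E, C (p.2, x) ∈ Z) {x : U} (hx : x ∈ E) : word ρ C l x ∈ Z := by
  induction l with
  | nil => simp at h1
  | cons p l ih =>
    obtain ⟨q, hq, h2⟩ := h1
    rcases List.mem_cons.1 hq with rfl | hq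
    · exact hZ _ _ (h2 _ (hE _ _ (word_mem ρ hE (fun r hr => h r (List.mem_cons_of_mem _ hr)) hx)))
    · exact hZ _ _ (h' p List.mem_cons_self _ (hZ _ _ (ih
        (fun r hr => h r (List.mem_cons_of_mem _ hr))
        (fun r hr => h' r (List.mem_cons_of_mem _ hr)) ⟨q, hq, h2⟩)))

omit [Fintype G] in
/-- words fix invariant sets that are fixed by the letters -/
theorem word_fix (ρ : G →* (U ≃ₗᵢ[ℝ] U)) {C : ℝ × U → U} {Z : Set U}
    (hZ : ∀ g, ∀ x ∈ Z, ρ g x ∈ Z) {l : List (G × ℝ)} (h : ∀ p ∈ l, ∀ x ∈ Z, C (p.2, x) = x)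
    {x : U} (hx : x ∈ Z) : word ρ C l x = x := by
  induction l with
  | nil => rfl
  | cons p l ih =>
    have h1 := ih fun q hq => h q (List.mem_cons_of_mem _ hq)
    change ρ p.1⁻¹ (C (p.2, ρ p.1 (word ρ C l x))) = x
    rw [h1, h p List.mem_cons_self _ (hZ _ _ hx), rep_inv_left]

omit [Fintype G] in
/-- A domain that is joined to the ball is a strong deformation retract of the space. -/
theorem exists_deform [FiniteDimensional ℝ U] {φ : U → ℝ}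
    (h : Joined φ fun x => ‖x‖ ^ 2 - 1) :
    ∃ C : ℝ × U → U, Continuous C ∧ (∀ x, C (0, x) = x) ∧ (∀ x, φ (C (1, x)) ≤ 0) ∧
      ∀ t x, φ x ≤ 0 → C (t, x) = x := by
  obtain ⟨ψ, Θ, Θ', hψ, hΘ⟩ := stIso U _ _ h
  have c1 : Continuous fun x => Θ (1, x) := hΘ.sm.continuous.comp (by fun_prop)
  have c2 : Continuous fun x => Θ' (1, x) := hΘ.sm'.continuous.comp (by fun_prop)
  have h1 : ∀ x, φ x ≤ 0 ↔ ‖Θ (1, x)‖ ≤ 1 := by
    intro x
    rw [← sq_le_one_iff₀ (norm_nonneg _), ← sub_nonpos (a := ‖Θ (1, x)‖ ^ 2), ← hψ.one]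
    refine ⟨fun h2 => ?_, fun h2 => le_of_not_gt fun h3 => absurd (hΘ.gt 1 x h3) h2.not_gt⟩
    rcases h2.eq_or_lt with h2 | h2
    · obtain ⟨d, hd, hd'⟩ := hΘ.col ‖x‖
      rw [hd' 1 x le_rfl (by rw [h2, abs_zero]; exact hd.le), h2]
    · exact (hΘ.lt 1 x h2).le
  have h3 : ∀ y : U, 0 < max 1 ‖y‖ := fun y => lt_max_of_lt_left one_pos
  refine ⟨fun y => Θ' (1, (1 - y.1 + y.1 * (max 1 ‖Θ (1, y.2)‖)⁻¹) • Θ (1, y.2)), ?_, fun x => ?_,
    fun x => ?_, fun t x hx => ?_⟩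
  · have c3 : Continuous fun x => (max 1 ‖Θ (1, x)‖)⁻¹ :=
      (continuous_const.max c1.norm).inv₀ fun x => (h3 _).ne'
    exact c2.comp (((continuous_const.sub continuous_fst).add
      (continuous_fst.mul (c3.comp continuous_snd))).smul (c1.comp continuous_snd))
  · simp [hΘ.left]
  · rw [h1, hΘ.right]
    simp only [sub_self, one_mul, zero_add]
    rw [norm_smul, Real.norm_of_nonneg (inv_nonneg.2 (h3 _).le), inv_mul_le_iff₀ (h3 _), mul_one]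
    exact le_max_right _ _
  · simp only
    rw [max_eq_left ((h1 x).1 hx)]
    simp [hΘ.left]

end

open Vale.Agent.P220Z.Def

theorem B5_act (g : G5) (b : EB5) (hb : b ∈ B5) : β5 g b ∈ B5 :=
  stB5.2.choose_spec.choose_spec.act g b hb

theorem B5_free (g : G5) (b : EB5) (hb : b ∈ B5) (h : β5 g b = b) : g = 1 :=
  stB5.2.choose_spec.choose_spec.free g b hb h

/-- An invariant domain that is joined to the ball has an equivariant family of retractions. -/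
theorem exists_retr {U : Type} [NormedAddCommGroup U] [InnerProductSpace ℝ U]
    [FiniteDimensional ℝ U] (ρ : G5 →* (U ≃ₗᵢ[ℝ] U)) {φ : U → ℝ} (hφ : ∀ g x, φ (ρ g x) = φ x)
    (h : Joined φ fun x => ‖x‖ ^ 2 - 1) : ∃ r, Rig.IsRetr ρ φ r ∧ Continuous r := by
  obtain ⟨C, c1, c2, c3, c4⟩ := exists_deform h
  obtain ⟨k, H, -, h1, h2, h3⟩ := exists_spread β5 ρ stB5.1.compact B5_act B5_free c1
    (fun g x => by rw [c2, c2]) 0
  have hZ : ∀ g, ∀ x ∈ {x | φ x ≤ 0}, ρ g x ∈ {x | φ x ≤ 0} := fun g x hx => (hφ g x).trans_le hx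
  have hc : Continuous fun y : EB5 × U => H (1, y) := h1.comp (by fun_prop)
  refine ⟨fun y => H (1, y), ⟨hc.continuousOn, fun b hb x => ?_, fun b hb x hx => ?_,
    fun g b _ x => h2 g 1 b x⟩, hc⟩
  · obtain ⟨l, -, -, ⟨p, hp, l3⟩, l4⟩ := h3 b hb
    rw [l4]
    refine word_mem_of_letter ρ (E := univ) (fun _ _ _ => mem_univ _) hZ
      (fun _ _ _ _ => mem_univ _) (fun q _ x hx => by rw [c4 _ x hx]; exact hx)
      ⟨_, List.mem_map_of_mem hp, fun x _ => ?_⟩ (mem_univ x)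
    simpa [l3] using c3 x
  · obtain ⟨l, -, -, -, l4⟩ := h3 b hb
    rw [l4]
    exact word_fix ρ hZ (fun q _ x hx => c4 _ x hx) hx

/-- the cover of the base, labelled by the second factor of the group -/
theorem exists_cover5 : ∃ (k : ℕ) (lb : Fin k → EB5 → ZMod 5 → ℝ),
    (∀ n i, Continuous fun b => lb n b i) ∧ (∀ n, ∀ b ∈ B5, ∀ i, lb n b i ∈ Icc (0 : ℝ) 1) ∧
    (∀ n (g : G5) b i, lb n (β5 g b) (i + g.toAdd.2) = lb n b i) ∧
    (∀ n, ∀ b ∈ B5, ∃ i₀, ∀ i ≠ i₀, lb n b i = 0) ∧ ∀ b ∈ B5, ∃ n i, lb n b i = 1 := by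
  obtain ⟨k, la, h1, h2, h3, h4⟩ := exists_cover β5 stB5.1.compact B5_free
  have key : ∀ n, ∀ b ∈ B5, ∃ g₀ : G5, (∀ g ≠ g₀, la n (β5 g b) = 0) ∧ ∀ i,
      ∑ j : ZMod 5, la n (β5 (Multiplicative.ofAdd (j, -i)) b) =
        if i = -g₀.toAdd.2 then la n (β5 g₀ b) else 0 := by
    intro n b hb
    obtain ⟨g₀, hg₀⟩ := exists_unique_label β5 B5_act (h3 n) hb
    refine ⟨g₀, hg₀, fun i => ?_⟩
    split_ifs with hi
    · rw [Finset.sum_eq_single g₀.toAdd.1 (fun j _ hj => hg₀ _ fun e => hj (by rw [← e]; rfl))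
        fun h => (h (Finset.mem_univ _)).elim, hi, neg_neg]
      rfl
    · refine Finset.sum_eq_zero fun j _ => hg₀ _ fun e => hi ?_
      rw [← e]
      simp
  refine ⟨k, fun n b i => ∑ j : ZMod 5, la n (β5 (Multiplicative.ofAdd (j, -i)) b),
    fun n i => continuous_finsetSum _ fun j _ => (h1 n).comp (β5 _).continuous,
    fun n b hb i => ?_, fun n g b i => ?_, fun n b hb => ?_, fun b hb => ?_⟩
  · obtain ⟨g₀, -, h⟩ := key n b hb
    simp only [h]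
    split_ifs
    · exact h2 n _
    · exact ⟨le_rfl, zero_le_one⟩
  · refine Fintype.sum_equiv (Equiv.addRight g.toAdd.1) _ _ fun j => ?_
    rw [← rep_mul]
    congr 3
    refine Multiplicative.toAdd.injective (Prod.ext ?_ ?_) <;> simp
  · obtain ⟨g₀, -, h⟩ := key n b hb
    exact ⟨-g₀.toAdd.2, fun i hi => by simp only [h, if_neg hi]⟩
  · obtain ⟨n, hn⟩ := h4 b hb
    obtain ⟨g₀, h5, h⟩ := key n b hb
    have h6 : g₀ = 1 := by
      by_contra h6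
      have h7 := h5 1 (Ne.symm h6)
      rw [rep_one, hn] at h7
      exact one_ne_zero h7
    refine ⟨n, -g₀.toAdd.2, ?_⟩
    simp only [h, if_true]
    rw [h6, rep_one, hn]

end Vale.Agent.P220Z.Top
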