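import Vale.Agent.P220Z.Top.Join
import Vale.Agent.P220Z.Rig.Defs
import Vale.Agent.P220Z.Dyn.Defs

/-!
# P220: the obstruction from the bridge, Theorem A, Theorem B and the toolkit
-/

open Set
open scoped ContDiff RealInnerProductSpace

namespace Vale.Agent.P220Z.Top

open Vale.Agent.P220Z.Def

/-- the action on `U × A` that is trivial on `A` -/
noncomputable def trivExt {G : Type} [Group G] {U : Type} [NormedAddCommGroup U]
    [InnerProductSpace ℝ U] (A : Type) [NormedAddCommGroup A] [InnerProductSpace ℝ A]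
    (ρ : G →* (U ≃ₗᵢ[ℝ] U)) : G →* (Dyn.Fib U A ≃ₗᵢ[ℝ] Dyn.Fib U A) where
  toFun g := LinearIsometryEquiv.withLpProdCongr 2 (ρ g) (LinearIsometryEquiv.refl ℝ _)
  map_one' := by
    ext x : 1
    rw [map_one]
    rfl
  map_mul' g h := by
    ext x : 1
    simp

/-- There are rigid data for the domain `{φ ≤ 0}`. -/
def HasRD {U : Type} [NormedAddCommGroup U] [InnerProductSpace ℝ U] (ρ : G5 →* (U ≃ₗᵢ[ℝ] U))
    (φ : U → ℝ) : Prop :=
  ∃ (A : Type) (_ : NormedAddCommGroup A) (_ : InnerProductSpace ℝ A) (_ : FiniteDimensional ℝ A)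
    (J : A →L[ℝ] A) (R L C e₀ c₀ : ℝ) (F : EB5 × Dyn.Fib U A → ℝ)
    (X : EB5 × Dyn.Fib U A → Dyn.Fib U A), Dyn.IsRD β5 B5 (trivExt A ρ) φ J R L C e₀ c₀ F X

/-- BRIDGE: a rigid structured stabilisation gives rigid data. -/
def StBridge : Prop :=
  ∀ (U : Type) [NormedAddCommGroup U] [InnerProductSpace ℝ U] [FiniteDimensional ℝ U]
    (ρ : G5 →* (U ≃ₗᵢ[ℝ] U)) (φ : U → ℝ) (θ : U), ‖θ‖ = 1 → (∀ g, ρ g θ = θ) → IsReg φ →
    (∀ g x, φ (ρ g x) = φ x) → ¬ HasRD ρ φ → NoRigidC β5 B5 ρ φ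

/-- THEOREM A: rigid data kill the invariant. -/
def StThA : Prop :=
  ∀ n : NFun, IsN n → ∀ (U : Type) [NormedAddCommGroup U] [InnerProductSpace ℝ U]
    [FiniteDimensional ℝ U] (ρ : G5 →* (U ≃ₗᵢ[ℝ] U)) (φ : U → ℝ), IsReg φ →
    (∀ g x, φ (ρ g x) = φ x) → HasRD ρ φ → Rig.AZero n ρ φ

/-- THEOREM B and the path: a domain with nonzero invariant that is joined to the ball. -/
def StThB : Prop :=
  ∀ (n : NFun) (w : WFun) (c : ZMod 5), c ≠ 0 → IsN n → IsW w → Loc n w c →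
    ∃ (U : Type) (_ : NormedAddCommGroup U) (_ : InnerProductSpace ℝ U)
      (_ : FiniteDimensional ℝ U) (ρ : G5 →* (U ≃ₗᵢ[ℝ] U)) (φ : U → ℝ) (θ : U),
      2 ≤ Module.finrank ℝ U ∧ ‖θ‖ = 1 ∧ (∀ g, ρ g θ = θ) ∧ (∀ g x, φ (ρ g x) = φ x) ∧
      Joined φ (fun x => ‖x‖ ^ 2 - 1) ∧ ¬ Rig.AZero n ρ φ

theorem stObsC_of (ht : StTool) (hb : StBridge) (hA : StThA) (hB : StThB) : StObsC := by
  obtain ⟨n, w, c, hc, hn, hw, hl⟩ := ht
  obtain ⟨U, _, _, _, ρ, φ, θ, hU, hθ, hfix, hinv, hJ, hne⟩ := hB n w c hc hn hw hl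
  exact ⟨U, inferInstance, inferInstance, inferInstance, ρ, Module.finrank ℝ U - 2, φ, by omega,
    hinv, hJ, hb U ρ φ θ hθ hfix hJ.left hinv fun h => hne (hA n hn U ρ φ hJ.left hinv h)⟩

end Vale.Agent.P220Z.Top
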