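import Vale.Agent.P220Z.Top.Join
import Vale.Agent.P220Z.Rig.Defs

/-!
# P220: the gradient of the defining function is an outward field
-/

open Set Filter Metric
open scoped ContDiff RealInnerProductSpace Topology

namespace Vale.Agent.P220Z.Top

open Vale.Agent.P220Z.Def

variable {U : Type} [NormedAddCommGroup U] [InnerProductSpace ℝ U] [FiniteDimensional ℝ U]

theorem inner_gradient (φ : U → ℝ) (x v : U) : ⟪gradient φ x, v⟫ = fderiv ℝ φ x v := by
  simp [gradient]

theorem contDiff_gradient {φ : U → ℝ} (h : ContDiff ℝ ∞ φ) : ContDiff ℝ ∞ (gradient φ) :=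
  (InnerProductSpace.toDual ℝ U).symm.contDiff.comp (h.fderiv_right (m := ∞) (by simp))

theorem gradient_equi {φ : U → ℝ} (h : Differentiable ℝ φ) (e : U ≃ₗᵢ[ℝ] U)
    (he : ∀ x, φ (e x) = φ x) (x : U) : gradient φ (e x) = e (gradient φ x) := by
  refine ext_inner_right ℝ fun v => ?_
  obtain ⟨u, rfl⟩ := e.surjective v
  rw [e.inner_map_map, inner_gradient, inner_gradient]
  have h1 := ((h (e x)).hasFDerivAt.comp x
    e.toContinuousLinearEquiv.toContinuousLinearMap.hasFDerivAt).fderiv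
  have h2 : φ ∘ e = φ := funext he
  rw [h2] at h1
  rw [h1]
  rfl

theorem IsReg.compact {φ : U → ℝ} (h : IsReg φ) : IsCompact {x | φ x ≤ 0} := by
  obtain ⟨R, hR⟩ := h.bdd
  exact (isCompact_closedBall (0 : U) R).of_isClosed_subset
    (isClosed_le h.smooth.continuous continuous_const) fun x hx =>
      mem_closedBall_zero_iff.2 (le_of_not_ge fun h1 => absurd (hR x h1) (not_lt.2 hx))

/-- a smooth map is Lipschitz on bounded sets -/
theorem exists_lip {V : Type} [NormedAddCommGroup V] [NormedSpace ℝ V] {f : U → V}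
    (hf : ContDiff ℝ ∞ f) (R : ℝ) :
    ∃ L : ℝ, 0 ≤ L ∧ ∀ x y, ‖x‖ ≤ R → ‖y‖ ≤ R → ‖f x - f y‖ ≤ L * ‖x - y‖ := by
  obtain ⟨C, hC⟩ := (isCompact_closedBall (0 : U) R).exists_bound_of_continuousOn
    (hf.continuous_fderiv (by simp)).continuousOn
  refine ⟨max C 0, le_max_right _ _, fun x y hx hy => ?_⟩
  exact (convex_closedBall (0 : U) R).norm_image_sub_le_of_norm_fderiv_le
    (fun z _ => hf.differentiable (by simp) z) (fun z hz => (hC z hz).trans (le_max_left _ _))
    (mem_closedBall_zero_iff.2 hy) (mem_closedBall_zero_iff.2 hx)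

theorem isFld_gradient (ρ : G5 →* (U ≃ₗᵢ[ℝ] U)) {φ : U → ℝ} (h : IsReg φ)
    (hφ : ∀ g x, φ (ρ g x) = φ x) : Rig.IsFld ρ φ fun y => gradient φ y.2 where
  cont := ((contDiff_gradient h.smooth).continuous.comp continuous_snd).continuousOn
  eq g _ _ x _ := gradient_equi (h.smooth.differentiable (by simp)) (ρ g) (hφ g) x
  lip := by
    obtain ⟨R, hR⟩ := h.bdd
    obtain ⟨L, -, hL⟩ := exists_lip (contDiff_gradient h.smooth) R
    have h1 : ∀ x, φ x ≤ 0 → ‖x‖ ≤ R := fun x hx =>
      le_of_not_ge fun h1 => absurd (hR x h1) (not_lt.2 hx)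
    exact ⟨L, fun _ _ x x' hx hx' => hL x x' (h1 x hx) (h1 x' hx')⟩
  out _ _ x hx := by
    refine real_inner_self_pos.2 fun h0 => h.reg x hx ?_
    ext v
    rw [← inner_gradient, h0]
    simp

end Vale.Agent.P220Z.Top
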