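import Vale.Agent.P220Z.Top.Defs2
import Vale.Agent.P220.R2.H57.Ret

/-!
# P220: a path of domains is given by an isotopy
-/

open Set Filter Topology Metric
open scoped ContDiff RealInnerProductSpace

namespace Vale.Agent.P220Z.Top

open Vale.Agent.P220.R2.H57

namespace Is

variable {U : Type} [NormedAddCommGroup U] [InnerProductSpace ℝ U] {ψ : ℝ × U → ℝ}

theorem fib (h : ContDiff ℝ ∞ ψ) (p : ℝ × U) :
    fderiv ℝ (fun y => ψ (p.1, y)) p.2 = (fderiv ℝ ψ p).comp (ContinuousLinearMap.inr ℝ ℝ U) :=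
  ((h.differentiable (by simp) p).hasFDerivAt.comp p.2 (hasFDerivAt_prodMk_right p.1 p.2)).fderiv

theorem time (h : ContDiff ℝ ∞ ψ) (t : ℝ) (x : U) :
    HasDerivAt (fun s => ψ (s, x)) (fderiv ℝ ψ (t, x) (1, 0)) t :=
  (h.differentiable (by simp) (t, x)).hasFDerivAt.comp_hasDerivAt t
    ((hasDerivAt_id t).prodMk (hasDerivAt_const t x))

/-- a function which is stationary at small values -/
theorem const_of {y y' : ℝ → ℝ} {ε : ℝ} (h : ∀ t, HasDerivAt y (y' t) t)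
    (h0 : ∀ t, |y t| ≤ ε → y' t = 0) {s : ℝ} (hs : |y s| < ε) (t : ℝ) : y t = y s := by
  have hd : Differentiable ℝ y := fun t => (h t).differentiableAt
  have h1 : IsClopen {t | y t = y s} := by
    refine ⟨isClosed_eq hd.continuous continuous_const, isOpen_iff_mem_nhds.2 fun u hu => ?_⟩
    have h2 : ∀ᶠ r in 𝓝 u, |y r| < ε :=
      hd.continuous.abs.continuousAt.eventually_lt_const
        (show |y u| < ε by rw [show y u = y s from hu]; exact hs)
    obtain ⟨δ, hδ, h3⟩ := Metric.mem_nhds_iff.1 h2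
    refine mem_of_superset (ball_mem_nhds u hδ) fun r hr => ?_
    exact (isOpen_ball.is_const_of_deriv_eq_zero (convex_ball u δ).isPreconnected
      hd.differentiableOn (fun q hq => (h q).deriv.trans (h0 q (le_of_lt (h3 hq)))) hr
      (mem_ball_self hδ)).trans hu
  exact (h1.eq_univ ⟨s, rfl⟩).ge (mem_univ t)

variable [FiniteDimensional ℝ U]

theorem exists_grad (h : ContDiff ℝ ∞ ψ) :
    ∃ g : ℝ × U → U, ContDiff ℝ ∞ g ∧ ∀ p w, ⟪g p, w⟫ = fderiv ℝ ψ p (0, w) := by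
  let e := stdOrthonormalBasis ℝ U
  have hD : ContDiff ℝ ∞ (fderiv ℝ ψ) := h.fderiv_right (m := ∞) (by simp)
  refine ⟨fun p => ∑ i, fderiv ℝ ψ p (0, e i) • e i,
    ContDiff.sum fun i _ => (hD.clm_apply contDiff_const).smul contDiff_const, fun p w => ?_⟩
  have h : ((0 : ℝ), w) = ∑ i, ⟪e i, w⟫ • ((0 : ℝ), e i) := by
    refine Prod.ext ?_ ?_
    · simp [Prod.fst_sum]
    · simp only [Prod.snd_sum, Prod.smul_snd]
      exact (e.sum_repr' w).symm
  rw [h, map_sum, sum_inner]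
  refine Finset.sum_congr rfl fun i _ => ?_
  rw [real_inner_smul_left, map_smul, smul_eq_mul, mul_comm]

theorem exists_eps (h : ContDiff ℝ ∞ ψ) {R : ℝ}
    (h1 : ∀ t ∈ Icc (0 : ℝ) 1, ∀ x, R ≤ ‖x‖ → 0 < ψ (t, x))
    (h2 : ∀ t ∈ Icc (0 : ℝ) 1, ∀ x, ψ (t, x) = 0 → fderiv ℝ (fun y => ψ (t, y)) x ≠ 0) :
    ∃ ε > 0, ∀ t ∈ Icc (0 : ℝ) 1, ∀ x, ‖x‖ ≤ R + 1 → |ψ (t, x)| ≤ 2 * ε →
      ‖x‖ < R ∧ fderiv ℝ (fun y => ψ (t, y)) x ≠ 0 := by
  have hc : IsClosed ({p : ℝ × U | R ≤ ‖p.2‖} ∪ {p | fderiv ℝ (fun y => ψ (p.1, y)) p.2 = 0}) := by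
    refine (isClosed_le continuous_const continuous_snd.norm).union ?_
    simp only [fib h]
    exact isClosed_eq ((h.continuous_fderiv (by simp)).clm_comp continuous_const) continuous_const
  obtain ⟨m, hm, h3⟩ := (((isCompact_Icc (a := (0 : ℝ)) (b := 1)).prod
    (isCompact_closedBall (0 : U) (R + 1))).inter_right hc).exists_forall_le'
    h.continuous.abs.continuousOn (a := 0) fun p hp => abs_pos.2 (hp.2.elim
      (fun h4 => (h1 _ hp.1.1 _ h4).ne') fun h4 h5 => h2 _ hp.1.1 _ h5 h4)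
  refine ⟨m / 3, by positivity, fun t ht x hx h4 => ?_⟩
  by_contra h5
  have h6 := h3 (t, x) ⟨⟨ht, mem_closedBall_zero_iff.2 hx⟩, (not_and_or.1 h5).imp not_lt.1 not_not.1⟩
  have h7 : m ≤ |ψ (t, x)| := h6
  linarith

/-- the vector field -/
theorem exists_field (h : ContDiff ℝ ∞ ψ) {R ε : ℝ} (hR : 0 < R) (hε : 0 < ε)
    (h1 : ∀ t x, ‖x‖ ≤ R + 1 → |ψ (t, x)| ≤ 2 * ε →
      ‖x‖ < R ∧ fderiv ℝ (fun y => ψ (t, y)) x ≠ 0)
    (h2 : ∀ t ∉ Icc (0 : ℝ) 1, ∀ x, fderiv ℝ ψ (t, x) (1, 0) = 0) :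
    ∃ v : ℝ × U → U, ContDiff ℝ ∞ v ∧ HasCompactSupport v ∧ (∀ p, R ≤ ‖p.2‖ → v p = 0) ∧
      ∀ p, ‖p.2‖ < R → |ψ p| ≤ ε → fderiv ℝ ψ p (1, v p) = 0 := by
  obtain ⟨g, hg, hT⟩ := exists_grad h
  let χ : ContDiffBump (0 : U) := ⟨R, R + 1, hR, by linarith⟩
  let η : ContDiffBump (0 : ℝ) := ⟨ε, 2 * ε, hε, by linarith⟩
  have hD : ContDiff ℝ ∞ (fderiv ℝ ψ) := h.fderiv_right (m := ∞) (by simp)
  have h3 : ∀ p : ℝ × U, ‖p.2‖ ≤ R + 1 → |ψ p| ≤ 2 * ε → g p ≠ 0 := fun p a b c => by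
    refine (h1 p.1 p.2 a b).2 ?_
    rw [fib h]
    ext w
    exact (hT _ w).symm.trans (by rw [c, inner_zero_left]; rfl)
  have h4 : ∀ p : ℝ × U, R + 1 < ‖p.2‖ ∨ 2 * ε < |ψ p| → χ p.2 * η (ψ p) = 0 := fun p hp =>
    mul_eq_zero.2 (hp.imp (fun a => χ.zero_of_le_dist (by rw [dist_zero_right]; exact a.le))
      fun a => η.zero_of_le_dist (by rw [dist_zero_right]; exact a.le))
  have h5 : ∀ p : ℝ × U, R ≤ ‖p.2‖ → χ p.2 * η (ψ p) = 0 := fun p hp => h4 p (by
    by_contra a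
    rw [not_or, not_lt, not_lt] at a
    exact absurd (h1 p.1 p.2 a.1 a.2).1 (not_lt.2 hp))
  refine ⟨fun p => -(χ p.2 * η (ψ p) * fderiv ℝ ψ p (1, 0) / ‖g p‖ ^ 2) • g p,
    contDiff_iff_contDiffAt.2 fun p => ?_,
    HasCompactSupport.intro ((isCompact_Icc (a := (0 : ℝ)) (b := 1)).prod
      (isCompact_closedBall (0 : U) R)) fun p hp => ?_, fun p hp => by simp [h5 p hp],
    fun p a b => ?_⟩
  · by_cases a : g p = 0
    · have b : R + 1 < ‖p.2‖ ∨ 2 * ε < |ψ p| := by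
        by_contra b
        rw [not_or, not_lt, not_lt] at b
        exact h3 p b.1 b.2 a
      have c : ∀ᶠ q in 𝓝 p, R + 1 < ‖q.2‖ ∨ 2 * ε < |ψ q| :=
        ((isOpen_lt continuous_const continuous_snd.norm).union
          (isOpen_lt continuous_const h.continuous.abs)).mem_nhds b
      refine (contDiffAt_const (c := (0 : U))).congr_of_eventuallyEq ?_
      filter_upwards [c] with q hq
      simp [h4 q hq]
    · refine ContDiffAt.smul (ContDiffAt.neg (ContDiffAt.div ?_ (hg.contDiffAt.norm_sq ℝ)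
        (pow_ne_zero _ (norm_ne_zero_iff.2 a)))) hg.contDiffAt
      exact (((χ.contDiff.comp contDiff_snd).mul (η.contDiff.comp h)).mul
        (hD.clm_apply contDiff_const)).contDiffAt
  · rcases not_and_or.1 hp with a | a
    · simp [show fderiv ℝ ψ p (1, 0) = 0 from h2 p.1 a p.2]
    · simp [h5 p (not_le.1 (mt mem_closedBall_zero_iff.2 a)).le]
  · have c := h3 p (by linarith) (by linarith)
    have e : ∀ w : U, ((1 : ℝ), w) = (1, 0) + (0, w) := fun w => by simp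
    rw [e, map_add, ← hT]
    beta_reduce
    rw [χ.one_of_mem_closedBall (mem_closedBall_zero_iff.2 a.le),
      η.one_of_mem_closedBall (mem_closedBall_zero_iff.2 b), real_inner_smul_right,
      real_inner_self_eq_norm_sq]
    have d := norm_ne_zero_iff.2 c
    field_simp
    ring

/-- the isotopy -/
theorem exists_iso (h : ContDiff ℝ ∞ ψ) {R ε : ℝ} (hε : 0 < ε) {v : ℝ × U → U}
    (hv : ContDiff ℝ ∞ v) (hc : HasCompactSupport v) (h0 : ∀ p, R ≤ ‖p.2‖ → v p = 0)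
    (h1 : ∀ p, ‖p.2‖ < R → |ψ p| ≤ ε → fderiv ℝ ψ p (1, v p) = 0)
    (h2 : ∀ t x, R ≤ ‖x‖ → 0 < ψ (t, x)) : ∃ Θ Θ', IsIso (fun x => ψ (0, x)) ψ Θ Θ' := by
  obtain ⟨C, hC⟩ := hc.exists_bound_of_continuous hv.continuous
  obtain ⟨Φ, hΦ⟩ := exists_flow_bounded (Y := fun p => ((1 : ℝ), v p)) (contDiff_const.prodMk hv)
    (C := max 1 C) fun p => by
      rw [Prod.norm_def, norm_one]
      exact max_le_max le_rfl (hC p)
  have f1 : ∀ t p, (Φ t p).1 = p.1 + t := fun t p => by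
    have a : ∀ s, HasDerivAt (fun s => (Φ s p).1 - s) 0 s := fun s => by
      have c : HasDerivAt (fun s => (Φ s p).1) 1 s :=
        (ContinuousLinearMap.fst ℝ ℝ U).hasFDerivAt.comp_hasDerivAt s (hΦ.deriv s p)
      exact (c.sub (hasDerivAt_id s)).congr_deriv (sub_self _)
    have b := is_const_of_deriv_eq_zero (fun s => (a s).differentiableAt) (fun s => (a s).deriv) t 0
    simp only [hΦ.zero] at b
    linarith
  have f2 : ∀ t x, Φ t (0, x) = (t, (Φ t (0, x)).2) := fun t x => Prod.ext (by simp [f1]) rfl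
  have f3 : ∀ t s x, R ≤ ‖x‖ → Φ t (s, x) = (s + t, x) := fun t s x hx => by
    have a := hΦ.uniq (fun r => (s + r, x)) (fun r => by
      rw [h0 (s + r, x) hx]
      exact ((hasDerivAt_id r).const_add s).prodMk (hasDerivAt_const r x)) t
    simpa using a.symm
  have f4 : ∀ t x, ‖x‖ < R → ‖(Φ t (0, x)).2‖ < R := fun t x hx => by
    by_contra a
    have b := hΦ.neg_left t (0, x)
    rw [f2, f3 _ _ _ (not_lt.1 a)] at b
    exact a ((congrArg Prod.snd b : (Φ t (0, x)).2 = x).symm ▸ hx)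
  have f5 : ∀ x t, HasDerivAt (fun t => ψ (Φ t (0, x)))
      (fderiv ℝ ψ (Φ t (0, x)) (1, v (Φ t (0, x)))) t := fun x t =>
    (h.differentiable (by simp) _).hasFDerivAt.comp_hasDerivAt t (hΦ.deriv t _)
  have f6 : ∀ x, ‖x‖ < R → ∀ s, |ψ (Φ s (0, x))| < ε → ∀ t, ψ (Φ t (0, x)) = ψ (Φ s (0, x)) :=
    fun x hx s hs t => const_of (f5 x) (fun r hr => h1 _ (f4 r x hx) hr) hs t
  have f7 : ∀ x, ‖x‖ < R → ψ (0, x) ≠ 0 → (0 : ℝ) ∉ range fun t => ψ (Φ t (0, x)) := by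
    rintro x hx a ⟨s, hs⟩
    have b : ψ (Φ s (0, x)) = 0 := hs
    have c := f6 x hx s (by rw [b, abs_zero]; exact hε) 0
    rw [hΦ.zero, b] at c
    exact a c
  have f8 : ∀ x, Continuous fun t => ψ (Φ t (0, x)) := fun x =>
    continuous_iff_continuousAt.2 fun t => (f5 x t).continuousAt
  refine ⟨fun p => (Φ p.1 (0, p.2)).2, fun p => (Φ (-p.1) p).2,
    (hΦ.smooth.comp (contDiff_fst.prodMk (contDiff_const.prodMk contDiff_snd))).snd,
    (hΦ.smooth.comp (contDiff_fst.neg.prodMk contDiff_id)).snd, fun x => by simp [hΦ.zero],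
    fun t x => ?_, fun t x => ?_, ⟨R, fun t x hx => by simp [f3 t 0 x hx]⟩, fun t x hx => ?_,
    fun t x hx => ?_, fun R' => ?_⟩
  · simp only [← f2, hΦ.neg_left]
  · have a : ((0 : ℝ), (Φ (-t) (t, x)).2) = Φ (-t) (t, x) := Prod.ext (by simp [f1]) rfl
    simp only [a, hΦ.neg_right]
  · have a : ‖x‖ < R := not_le.1 fun a => absurd (h2 0 x a) (not_lt.2 hx.le)
    simp only [← f2]
    by_contra b
    refine f7 x a hx.ne (intermediate_value_univ 0 t (f8 x) ⟨?_, not_lt.1 b⟩)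
    simpa [hΦ.zero] using hx.le
  · rcases lt_or_ge ‖x‖ R with a | a
    · simp only [← f2]
      by_contra b
      refine f7 x a hx.ne' (intermediate_value_univ t 0 (f8 x) ⟨not_lt.1 b, ?_⟩)
      simpa [hΦ.zero] using hx.le
    · simpa [f3 t 0 x a] using h2 t x a
  · obtain ⟨m, hm, a⟩ := ((isCompact_closedBall (0 : U) R').inter_right
      (isClosed_le continuous_const continuous_norm : IsClosed {x : U | R ≤ ‖x‖})).exists_forall_le'
      (h.continuous.comp (Continuous.prodMk_right 0)).continuousOn (a := 0)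
      fun x hx => h2 0 x hx.2
    refine ⟨min m ε / 2, by positivity, fun t x hx b => ?_⟩
    have c := min_le_left m ε
    have d := min_le_right m ε
    have e : ‖x‖ < R := not_le.1 fun e => by
      have f : m ≤ ψ (0, x) := a x ⟨mem_closedBall_zero_iff.2 hx, e⟩
      linarith [le_abs_self (ψ (0, x))]
    have g := f6 x e 0 (by rw [hΦ.zero]; linarith) t
    rw [hΦ.zero, f2] at g
    exact g

end Is

theorem stIso : StIso := by
  intro U _ _ _ φ₀ φ₁ ⟨ψ₀, h⟩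
  obtain ⟨R₀, hR⟩ := h.bdd
  have hσ : ∀ t, Real.smoothTransition t ∈ Icc (0 : ℝ) 1 := fun t =>
    ⟨Real.smoothTransition.nonneg t, Real.smoothTransition.le_one t⟩
  have h0 : ∀ t ∈ Icc (0 : ℝ) 1, ∀ x, |R₀| + 1 ≤ ‖x‖ → 0 < ψ₀ (t, x) := fun t ht x hx =>
    hR t ht x (by linarith [le_abs_self R₀])
  obtain ⟨ε, hε, h1⟩ := Is.exists_eps h.smooth h0 h.reg
  have hs : ContDiff ℝ ∞ fun p : ℝ × U => ψ₀ (Real.smoothTransition p.1, p.2) :=
    h.smooth.comp ((Real.smoothTransition.contDiff.comp contDiff_fst).prodMk contDiff_snd)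
  obtain ⟨v, v1, v2, v3, v4⟩ := Is.exists_field hs (R := |R₀| + 1) (by positivity) hε
    (fun t x => h1 _ (hσ t) x) fun t ht x => by
      refine (Is.time hs t x).unique ((hasDerivAt_const t
        (ψ₀ (Real.smoothTransition t, x))).congr_of_eventuallyEq ?_)
      rcases not_and_or.1 ht with a | a
      · filter_upwards [Iio_mem_nhds (not_le.1 a)] with s b
        rw [Real.smoothTransition.zero_of_nonpos (le_of_lt b),
          Real.smoothTransition.zero_of_nonpos (not_le.1 a).le]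
      · filter_upwards [Ioi_mem_nhds (not_le.1 a)] with s b
        rw [Real.smoothTransition.one_of_one_le (le_of_lt b),
          Real.smoothTransition.one_of_one_le (not_le.1 a).le]
  obtain ⟨Θ, Θ', h2⟩ := Is.exists_iso hs hε v1 v2 v3 v4 fun t x => h0 _ (hσ t) x
  have e : (fun x => ψ₀ (Real.smoothTransition 0, x)) = φ₀ := funext fun x => by
    rw [Real.smoothTransition.zero, h.zero]
  exact ⟨_, Θ, Θ', ⟨hs, congrFun e, fun x => by simp [h.one], ⟨_, fun t _ => h0 _ (hσ t)⟩,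
    fun t _ => h.reg _ (hσ t)⟩, e ▸ h2⟩

end Vale.Agent.P220Z.Top
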