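import Vale.Agent.P220Z.Top.Defs2
import Vale.Agent.P220Z.Per.Rigid

/-!
# P220: a generating family is pulled back by fibre diffeomorphisms
-/

open Set Filter Topology
open scoped ContDiff RealInnerProductSpace

namespace Vale.Agent.P220Z.Top

open Vale.Agent.P220.R2.H57 Vale.Agent.P220Z.Per Vale.Agent.P220Z.Cn

namespace Pl

variable {E : Type} [NormedAddCommGroup E] [InnerProductSpace ℝ E]
  {V : Type} [NormedAddCommGroup V] [InnerProductSpace ℝ V]

/-- the chain rule -/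
theorem chain {A : Type} [NormedAddCommGroup A] [NormedSpace ℝ A] {F : E × V → A}
    {Φ : E × V → V} (hF : ContDiff ℝ ∞ F) (hΦ : ContDiff ℝ ∞ Φ) (b : E) (x : V) (u : E) (w : V) :
    fderiv ℝ (fun y : E × V => F (y.1, Φ y)) (b, x) (u, w) =
      fderiv ℝ F (b, Φ (b, x)) (u, fderiv ℝ Φ (b, x) (u, w)) := by
  have h1 : HasFDerivAt (fun y : E × V => (y.1, Φ y))
      ((ContinuousLinearMap.fst ℝ E V).prod (fderiv ℝ Φ (b, x))) (b, x) :=
    hasFDerivAt_fst.prodMk (hΦ.differentiable (by simp) _).hasFDerivAt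
  have h2 := ((hF.differentiable (by simp) (b, Φ (b, x))).hasFDerivAt.comp (b, x) h1).fderiv
  exact congrArg (fun C => C (u, w)) h2

/-- the fibre differential of a map with a smooth left inverse is injective -/
theorem inj {Φ Φ' : E × V → V} (hΦ : ContDiff ℝ ∞ Φ) (hΦ' : ContDiff ℝ ∞ Φ') {b : E}
    (h : ∀ x, Φ' (b, Φ (b, x)) = x) (x w : V) (hw : fderiv ℝ Φ (b, x) (0, w) = 0) : w = 0 := by
  have hc : ContDiff ℝ ∞ fun y : E × V => Φ' (y.1, Φ y) := hΦ'.comp (contDiff_fst.prodMk hΦ)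
  have h1 : HasFDerivAt (fun y : V => (b, y)) (ContinuousLinearMap.inr ℝ E V) x :=
    hasFDerivAt_prodMk_right b x
  have h2 := (hc.differentiable (by simp) (b, x)).hasFDerivAt.comp x h1
  have h3 : ((fun y : E × V => Φ' (y.1, Φ y)) ∘ fun y : V => (b, y)) = id := funext h
  rw [h3] at h2
  have h4 : fderiv ℝ (fun y : E × V => Φ' (y.1, Φ y)) (b, x) (0, w) = w :=
    congrArg (fun C => C w) (h2.unique (hasFDerivAt_id x))
  rw [chain hΦ' hΦ, hw] at h4
  rw [← h4]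
  exact map_zero _

theorem surj [FiniteDimensional ℝ V] {Φ Φ' : E × V → V} (hΦ : ContDiff ℝ ∞ Φ)
    (hΦ' : ContDiff ℝ ∞ Φ') {b : E} (h : ∀ x, Φ' (b, Φ (b, x)) = x) (x : V) (u : E) (v : V) :
    ∃ w, fderiv ℝ Φ (b, x) (u, w) = v := by
  let A : V →ₗ[ℝ] V := (fderiv ℝ Φ (b, x)).toLinearMap.comp (LinearMap.inr ℝ E V)
  have h1 : Function.Injective A := (injective_iff_map_eq_zero A).2 (inj hΦ hΦ' h x)
  obtain ⟨w, hw⟩ := LinearMap.injective_iff_surjective.1 h1 (v - fderiv ℝ Φ (b, x) (u, 0))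
  refine ⟨w, ?_⟩
  have h2 : fderiv ℝ Φ (b, x) (0, w) = v - fderiv ℝ Φ (b, x) (u, 0) := hw
  rw [show (u, w) = (u, (0 : V)) + ((0 : E), w) by simp, map_add, h2]
  abel

/-- at a fibre critical point the differential depends only on the base component -/
theorem base {F : E × V → ℝ} (hF : ContDiff ℝ ∞ F) {b : E} {y : V} (h : dV F b y = 0) (u : E)
    (w : V) : fderiv ℝ F (b, y) (u, w) = fderiv ℝ F (b, y) (u, 0) := by
  rw [show (u, w) = (u, (0 : V)) + ((0 : E), w) by simp, map_add, ← Aux.dV_apply hF, h]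
  simp

theorem reg [FiniteDimensional ℝ E] [FiniteDimensional ℝ V] {F : E × V → ℝ}
    {Φ Φ' : E × V → V} (hF : ContDiff ℝ ∞ F) (hΦ : ContDiff ℝ ∞ Φ)
    (hΦ' : ContDiff ℝ ∞ Φ') {Qt : Set E} {b : E}
    (h : ∀ x, Φ' (b, Φ (b, x)) = x) {x : V} (h0 : dV F b (Φ (b, x)) = 0)
    (hr : Reg Qt F b (Φ (b, x))) : Reg Qt (fun y => F (y.1, Φ y)) b x := by
  intro v hv
  refine inj hΦ hΦ' h x v (hr _ fun u hu w' => ?_)
  obtain ⟨w, rfl⟩ := surj hΦ hΦ' h x u w'
  have hD : ContDiff ℝ ∞ (fderiv ℝ F) := hF.fderiv_right (m := ∞) (by simp)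
  have hD' : ContDiff ℝ ∞ (fderiv ℝ Φ) := hΦ.fderiv_right (m := ∞) (by simp)
  have e : x + (0 : ℝ) • v = x := by rw [zero_smul, add_zero]
  have h1 : HasDerivAt (fun t : ℝ => (b, x + t • v)) ((0 : E), v) 0 :=
    (hasDerivAt_const _ b).prodMk (Aux.hasDerivAt_line x v 0)
  have h2 : HasDerivAt (fun t : ℝ => (b, Φ (b, x + t • v)))
      ((0 : E), fderiv ℝ Φ (b, x + (0 : ℝ) • v) (0, v)) 0 :=
    (hasDerivAt_const _ b).prodMk
      ((hΦ.differentiable (by simp) _).hasFDerivAt.comp_hasDerivAt (0 : ℝ) h1)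
  have h3 := (hD.differentiable (by simp) _).hasFDerivAt.comp_hasDerivAt (0 : ℝ) h2
  have h4 := (ContinuousLinearMap.apply ℝ V (u, w)).hasFDerivAt.comp_hasDerivAt (0 : ℝ)
    ((hD'.differentiable (by simp) _).hasFDerivAt.comp_hasDerivAt (0 : ℝ) h1)
  have h5 := h3.clm_apply ((hasDerivAt_const (0 : ℝ) u).prodMk h4)
  have h6 := (hv u hu w).unique (h5.congr_of_eventuallyEq
    (Eventually.of_forall fun t => chain hF hΦ b (x + t • v) u w))
  simp only [Function.comp_apply, e, ContinuousLinearMap.apply_apply] at h6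
  rw [← Aux.dV_apply hF, h0, zero_apply, add_zero] at h6
  have h7 := Rig.line_deriv hF b (Φ (b, x)) (fderiv ℝ Φ (b, x) (0, v))
    (u, fderiv ℝ Φ (b, x) (u, w))
  rwa [← h6] at h7

end Pl

theorem stPull : StPull := by
  intro G _ E _ _ _ E' _ _ V _ _ _ α ρ Qt P L a m R F Φ Φ' hΦ hΦ' hl hr he hf hA hG
  have hF := hA.smooth
  have hF' : ContDiff ℝ ∞ fun y : E × V => F (y.1, Φ y) := hF.comp (contDiff_fst.prodMk hΦ)
  have crit : ∀ b ∈ Qt, ∀ x, dV (fun y : E × V => F (y.1, Φ y)) b x = 0 ↔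
      dV F b (Φ (b, x)) = 0 := by
    intro b hb x
    refine ⟨fun h => ContinuousLinearMap.ext fun v => ?_,
      fun h => ContinuousLinearMap.ext fun w => ?_⟩
    · obtain ⟨w, rfl⟩ := Pl.surj hΦ hΦ' (hl b hb) x 0 v
      rw [Aux.dV_apply hF, ← Pl.chain hF hΦ, ← Aux.dV_apply hF', h]
      rfl
    · rw [Aux.dV_apply hF', Pl.chain hF hΦ, ← Aux.dV_apply hF, h]
      rfl
  have cov : ∀ b x, dV F b (Φ (b, x)) = 0 → ∀ u,
      fderiv ℝ (fun y : E × V => F (y.1, Φ y)) (b, x) (u, 0) =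
        fderiv ℝ F (b, Φ (b, x)) (u, 0) := fun b x h u => by
    rw [Pl.chain hF hΦ, Pl.base hF h]
  refine ⟨⟨hF', fun g b hb x => ?_, ?_, fun b hb x h => hA.gap b hb _ ((crit b hb x).1 h)⟩,
    fun b hb x h => hG.gap b hb _ ((crit b hb x).1 h), fun b hb x h h1 => ?_,
    fun b hb x x' h h' h1 h1' h2 => ?_, fun b hb p hp => ?_, fun b hb x h h1 => ?_⟩
  · show F (α g b, Φ (α g b, ρ g x)) = F (b, Φ (b, x))
    rw [he g b hb, hA.inv g b hb]
  · obtain ⟨c, hc, R', h⟩ := hA.far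
    refine ⟨c, hc, max (R + 1) R', fun b hb x hx => ?_⟩
    have h1 : (fun y => F (b, Φ (b, y))) =ᶠ[𝓝 x] fun y => F (b, y) := by
      have h2 : R < ‖x‖ := by linarith [le_max_left (R + 1) R']
      filter_upwards [continuous_norm.continuousAt.eventually (lt_mem_nhds h2)] with y hy
      rw [hf b hb y hy.le]
    have h3 : dV (fun y : E × V => F (y.1, Φ y)) b x = dV F b x := h1.fderiv_eq
    rw [h3]
    exact h b hb x ((le_max_right _ _).trans hx)
  · have h0 := (crit b hb x).1 h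
    obtain ⟨p, hp, hc⟩ := hG.mem b hb _ h0 h1
    exact ⟨p, hp, fun u hu => (hc u hu).trans (cov b x h0 u).symm⟩
  · have h0 := (crit b hb x).1 h
    have h0' := (crit b hb x').1 h'
    have h3 := hG.inj b hb _ _ h0 h0' h1 h1' fun u hu => by
      rw [← cov b x h0, ← cov b x' h0', h2 u hu]
    rw [← hl b hb x, h3, hl b hb]
  · obtain ⟨y, h0, h1, hc⟩ := hG.onto b hb p hp
    rw [← hr b hb y] at h0 h1 hc
    exact ⟨_, (crit b hb _).2 h0, h1, fun u hu => (hc u hu).trans (cov b _ h0 u).symm⟩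
  · have h0 := (crit b hb x).1 h
    exact Pl.reg hF hΦ hΦ' (hl b hb) h0 (hG.reg b hb _ h0 h1)

end Vale.Agent.P220Z.Top
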