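import Vale.Agent.P220Z.Top.Defs2

/-!
# P220: the family of domains over the base and its trivialisation
-/

open Set
open scoped ContDiff RealInnerProductSpace

namespace Vale.Agent.P220Z.Top

open Vale.Agent.P220.R2.H57 Vale.Agent.P220Z.Per Vale.Agent.P220Z.Cn

namespace Sp

variable {G : Type} [Group G]
  {EB : Type} [NormedAddCommGroup EB] [InnerProductSpace ℝ EB]
  {U : Type} [NormedAddCommGroup U] [InnerProductSpace ℝ U]

lemma act_mul (ρ : G →* (U ≃ₗᵢ[ℝ] U)) (g h : G) (x : U) : ρ g (ρ h x) = ρ (g * h) x := by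
  rw [map_mul]
  rfl

lemma act_one (ρ : G →* (U ≃ₗᵢ[ℝ] U)) (x : U) : ρ 1 x = x := by
  rw [map_one]
  rfl

lemma act_inv (ρ : G →* (U ≃ₗᵢ[ℝ] U)) (g : G) (x : U) : ρ g⁻¹ (ρ g x) = x := by
  rw [act_mul, inv_mul_cancel, act_one]

lemma act_inv' (ρ : G →* (U ≃ₗᵢ[ℝ] U)) (g : G) (x : U) : ρ g (ρ g⁻¹ x) = x := by
  rw [act_mul, mul_inv_cancel, act_one]

/-- all translates of `b` except the one by `g₀` are outside the support of `τ` -/
def Only (β : G →* (EB ≃ₗᵢ[ℝ] EB)) (τ : EB → ℝ) (b : EB) (g₀ : G) : Prop :=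
  ∀ g, g ≠ g₀ → τ (β g b) = 0

variable {β : G →* (EB ≃ₗᵢ[ℝ] EB)} {ρ : G →* (U ≃ₗᵢ[ℝ] U)} {B : Set EB} {s τ : EB → ℝ}
  {b : EB} {g₀ : G}

lemma only_of_ne (h : IsLab β B s τ) (hb : b ∈ B) (h0 : τ (β g₀ b) ≠ 0) : Only β τ b g₀ := by
  intro g hg
  by_contra h1
  refine hg (mul_inv_eq_one.1 (h.disj (g * g₀⁻¹) _ (h.act g₀ b hb) h0 ?_))
  rwa [act_mul, inv_mul_cancel_right]

lemma exists_only (h : IsLab β B s τ) (hb : b ∈ B) : ∃ g₀, Only β τ b g₀ := by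
  by_cases h0 : ∃ g₀, τ (β g₀ b) ≠ 0
  · exact h0.imp fun _ => only_of_ne h hb
  · exact ⟨1, fun g _ => not_not.1 fun h1 => h0 ⟨g, h1⟩⟩

lemma Only.shift (h : Only β τ b g₀) (k : G) : Only β τ (β k b) (g₀ * k⁻¹) := fun g hg => by
  rw [act_mul]
  exact h _ fun e => hg (by rw [← e, mul_inv_cancel_right])

variable [Fintype G]

/-- the family of functions -/
noncomputable def fam (β : G →* (EB ≃ₗᵢ[ℝ] EB)) (ρ : G →* (U ≃ₗᵢ[ℝ] U)) (τ : EB → ℝ)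
    (ψ : ℝ × U → ℝ) (y : EB × U) : ℝ :=
  ψ (0, y.2) + ∑ g, (ψ (τ (β g y.1), ρ g y.2) - ψ (0, y.2))

/-- the family of maps -/
noncomputable def tri (β : G →* (EB ≃ₗᵢ[ℝ] EB)) (ρ : G →* (U ≃ₗᵢ[ℝ] U)) (τ : EB → ℝ)
    (Θ : ℝ × U → U) (y : EB × U) : U :=
  y.2 + ∑ g, (ρ g⁻¹ (Θ (τ (β g y.1), ρ g y.2)) - y.2)

lemma fam_eq {ψ : ℝ × U → ℝ} (hψ : ∀ g x, ψ (0, ρ g x) = ψ (0, x)) (h : Only β τ b g₀) (x : U) :
    fam β ρ τ ψ (b, x) = ψ (τ (β g₀ b), ρ g₀ x) := by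
  rw [fam, Finset.sum_eq_single g₀ (fun g _ hg => by rw [h g hg, hψ, sub_self])
    fun h => (h (Finset.mem_univ _)).elim, add_sub_cancel]

lemma tri_eq {Θ : ℝ × U → U} (hΘ : ∀ x, Θ (0, x) = x) (h : Only β τ b g₀) (x : U) :
    tri β ρ τ Θ (b, x) = ρ g₀⁻¹ (Θ (τ (β g₀ b), ρ g₀ x)) := by
  rw [tri, Finset.sum_eq_single g₀ (fun g _ hg => by rw [h g hg, hΘ, act_inv, sub_self])
    fun h => (h (Finset.mem_univ _)).elim, add_sub_cancel]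

omit [Fintype G] in
lemma arg_smooth (hτ : ContDiff ℝ ∞ τ) (g : G) :
    ContDiff ℝ ∞ fun y : EB × U => (τ (β g y.1), ρ g y.2) :=
  (hτ.comp ((β g).contDiff.comp contDiff_fst)).prodMk ((ρ g).contDiff.comp contDiff_snd)

lemma fam_smooth {ψ : ℝ × U → ℝ} (hτ : ContDiff ℝ ∞ τ) (hψ : ContDiff ℝ ∞ ψ) :
    ContDiff ℝ ∞ (fam β ρ τ ψ) := by
  have h0 : ContDiff ℝ ∞ fun y : EB × U => ψ (0, y.2) :=
    hψ.comp (contDiff_const.prodMk contDiff_snd)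
  exact h0.add (ContDiff.sum fun g _ => (hψ.comp (arg_smooth hτ g)).sub h0)

lemma tri_smooth {Θ : ℝ × U → U} (hτ : ContDiff ℝ ∞ τ) (hΘ : ContDiff ℝ ∞ Θ) :
    ContDiff ℝ ∞ (tri β ρ τ Θ) :=
  contDiff_snd.add (ContDiff.sum fun g _ =>
    ((ρ g⁻¹).contDiff.comp (hΘ.comp (arg_smooth hτ g))).sub contDiff_snd)

/-- on the unit sphere two points with the same outward normal are equal -/
lemma round_chord {x x' : U} (hx : ‖x‖ ^ 2 - 1 = 0) (hx' : ‖x'‖ ^ 2 - 1 = 0) {c : ℝ} (hc : 0 < c)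
    (e : fderiv ℝ (fun y : U => ‖y‖ ^ 2 - 1) x' = c • fderiv ℝ (fun y : U => ‖y‖ ^ 2 - 1) x) :
    x' = x := by
  have h : ∀ z : U, fderiv ℝ (fun y : U => ‖y‖ ^ 2 - 1) z = 2 • innerSL ℝ z := fun z =>
    ((hasStrictFDerivAt_norm_sq z).hasFDerivAt.sub_const 1).fderiv
  rw [h, h] at e
  have h1 : x' = c • x := by
    refine ext_inner_right ℝ fun v => ?_
    have := congrArg (fun L : U →L[ℝ] ℝ => L v) e
    simp only [smul_apply, innerSL_apply_apply, nsmul_eq_mul,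
      smul_eq_mul] at this
    rw [real_inner_smul_left]
    push_cast at this
    linarith
  rw [h1, norm_smul, Real.norm_eq_abs, mul_pow, sq_abs] at hx'
  have h2 : c = 1 := by
    have : c ^ 2 = 1 := by nlinarith
    nlinarith
  rw [h1, h2, one_smul]

end Sp

open Sp in
/-- SPREAD -/
theorem stSpread : StSpread := by
  intro G _ _ EB _ _ U _ _ β ρ B s τ φ₀ ψ Θ Θ' hL hφ hP hI
  have h0 : ∀ g x, ψ (0, ρ g x) = ψ (0, x) := fun g x => by rw [hP.zero, hP.zero, hφ]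
  have hΘ' : ∀ x, Θ' (0, x) = x := fun x => by
    conv_lhs => rw [← hI.zero x]
    exact hI.left 0 x
  have hr : ∀ b ∈ B, ∀ g, τ (β g b) = 1 → ∀ x, fam β ρ τ ψ (b, x) = ‖x‖ ^ 2 - 1 :=
    fun b hb g hg x => by
      rw [fam_eq h0 (only_of_ne hL hb (hg.trans_ne one_ne_zero)), hg, hP.one,
        LinearIsometryEquiv.norm_map]
  have hc : ∀ b g₀, Only β τ b g₀ → ∀ x, fam β ρ τ ψ (b, tri β ρ τ Θ (b, x)) =
      ψ (τ (β g₀ b), Θ (τ (β g₀ b), ρ g₀ x)) := fun b g₀ h x => by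
    rw [fam_eq h0 h, tri_eq hI.zero h, act_inv']
  refine ⟨fam β ρ τ ψ, tri β ρ τ Θ, tri β ρ τ Θ', ⟨hL.act, hL.free, fam_smooth hL.sτ hP.smooth,
    hL.ss, fun g b hb x => ?_, hL.invs, ?_, fun b hb x hx => ?_, ?_,
    fun b hb hs x x' hx hx' ⟨c, c0, e⟩ _ => ?_⟩, tri_smooth hL.sτ hI.sm, tri_smooth hL.sτ hI.sm',
    fun b hb x => ?_, fun b hb x => ?_, fun g b hb x => ?_, ?_, fun b hb x hx => ?_,
    fun b hb x hx => ?_, fun R => ?_⟩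
  · obtain ⟨g₀, h⟩ := exists_only hL hb
    rw [fam_eq h0 h, fam_eq h0 (h.shift g), act_mul, act_mul, inv_mul_cancel_right]
  · obtain ⟨R, hR⟩ := hP.bdd
    refine ⟨R, fun b hb x hx => ?_⟩
    obtain ⟨g₀, h⟩ := exists_only hL hb
    rw [fam_eq h0 h]
    exact hR _ (hL.mem _) _ (by rwa [LinearIsometryEquiv.norm_map])
  · obtain ⟨g₀, h⟩ := exists_only hL hb
    rw [fam_eq h0 h] at hx
    intro e
    refine hP.reg _ (hL.mem _) _ hx ?_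
    have e1 : (fun y => fam β ρ τ ψ (b, y)) =
        (fun y => ψ (τ (β g₀ b), y)) ∘ (ρ g₀).toContinuousLinearEquiv := funext (fam_eq h0 h)
    rw [dV, e1, ContinuousLinearEquiv.comp_right_fderiv] at e
    ext v
    have := congrArg (fun L : U →L[ℝ] ℝ => L (ρ g₀⁻¹ v)) e
    simpa [act_inv'] using this
  · obtain ⟨b, hb, h⟩ := hL.ex
    exact ⟨b, hb, hr b hb 1 (by rwa [act_one])⟩
  · obtain ⟨g, hg⟩ := hL.crit b hb hs
    rw [hr b hb g hg] at hx hx'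
    rw [dV, dV, funext (hr b hb g hg)] at e
    exact round_chord hx hx' c0 e
  · obtain ⟨g₀, h⟩ := exists_only hL hb
    rw [tri_eq hΘ' h, tri_eq hI.zero h, act_inv', hI.left, act_inv]
  · obtain ⟨g₀, h⟩ := exists_only hL hb
    rw [tri_eq hI.zero h, tri_eq hΘ' h, act_inv', hI.right, act_inv]
  · obtain ⟨g₀, h⟩ := exists_only hL hb
    rw [tri_eq hI.zero h, tri_eq hI.zero (h.shift g), act_mul, act_mul, act_mul,
      inv_mul_cancel_right, mul_inv_rev, inv_inv]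
  · obtain ⟨R, hR⟩ := hI.far
    refine ⟨R, fun b hb x hx => ?_⟩
    obtain ⟨g₀, h⟩ := exists_only hL hb
    rw [tri_eq hI.zero h, hR _ _ (by rwa [LinearIsometryEquiv.norm_map]), act_inv]
  · obtain ⟨g₀, h⟩ := exists_only hL hb
    rw [hc b g₀ h]
    exact hI.lt _ _ (by rwa [hφ])
  · obtain ⟨g₀, h⟩ := exists_only hL hb
    rw [hc b g₀ h]
    exact hI.gt _ _ (by rwa [hφ])
  · obtain ⟨δ, δ0, hδ⟩ := hI.col R
    refine ⟨δ, δ0, fun b hb x hx hx' => ?_⟩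
    obtain ⟨g₀, h⟩ := exists_only hL hb
    rw [hc b g₀ h, hδ _ _ (by rwa [LinearIsometryEquiv.norm_map]) (by rwa [hφ]), hφ]

end Vale.Agent.P220Z.Top
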