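import Vale.Agent.P220Z.Top.Sk2
import Vale.Agent.P220Z.Top.Sk3
import Vale.Agent.P220Z.Top.Iso
import Vale.Agent.P220Z.Top.Spread
import Vale.Agent.P220Z.Top.Pull
import Vale.Agent.P220Z.Top.B5
import Vale.Agent.P220Z.Cn.All

/-!
# P220: the construction is complete; the counterexample from the remaining statements
-/

namespace Vale.Agent.P220Z.Top

open Vale.Agent.P220.R2.H57 Vale.Agent.P220Z.Per

theorem counter (hp : StStruct) (ht : Def.StTool) (hb : StBridge) (hA : StThA) (hB : StThB) :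
    ∃ (N n : ℕ) (Q : Set (EuclideanSpace ℝ (Fin N)))
      (L : Set (EuclideanSpace ℝ (Fin N) × EuclideanSpace ℝ (Fin N))),
      IsClosedManifold n Q ∧ IsExactLagrangian n Q L ∧ ¬ HamIsotopicToZero Q L :=
  counter_of2 Cn.stBase (stCoverE Cn.stQuot Cn.stImg) Cn.sig Cn.lag Cn.stFam stIso stSpread stPull
    stB5 hp (stObsC_of ht hb hA hB)

end Vale.Agent.P220Z.Top
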