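import Vale.Agent.P220Z.Top.Sk3
import Vale.Agent.P220Z.Per.Stp

/-!
# P220, the bridge: cut-off maps, gradients and bounds
-/

open Set Filter Topology
open scoped ContDiff RealInnerProductSpace

set_option linter.unusedSectionVars false

namespace Vale.Agent.P220Z.Top

namespace Br

open Vale.Agent.P220Z.Dyn

variable {EB : Type} [NormedAddCommGroup EB] [InnerProductSpace ℝ EB]
  {U : Type} [NormedAddCommGroup U] [InnerProductSpace ℝ U] [FiniteDimensional ℝ U]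
  {A : Type} [NormedAddCommGroup A] [InnerProductSpace ℝ A] [FiniteDimensional ℝ A]
  {V : Type} [NormedAddCommGroup V] [InnerProductSpace ℝ V]
  {N : Type} [NormedAddCommGroup N] [NormedSpace ℝ N]

theorem exists_T (V : Type) [NormedAddCommGroup V] [InnerProductSpace ℝ V] [FiniteDimensional ℝ V] :
    ∃ T : (V →L[ℝ] ℝ) →L[ℝ] V, (∀ l v, ⟪T l, v⟫ = l v) ∧ ∀ l, ‖T l‖ ≤ ‖l‖ := by
  let e := stdOrthonormalBasis ℝ V
  have h : ∀ (l : V →L[ℝ] ℝ) (v : V),
      ⟪(∑ i, (ContinuousLinearMap.apply ℝ ℝ (e i)).smulRight (e i) : (V →L[ℝ] ℝ) →L[ℝ] V) l, v⟫ =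
        l v := by
    intro l v
    conv_rhs => rw [← e.sum_repr' v]
    rw [map_sum, sum_apply, sum_inner]
    refine Finset.sum_congr rfl fun i _ => ?_
    rw [ContinuousLinearMap.smulRight_apply, real_inner_smul_left, map_smul,
      ContinuousLinearMap.apply_apply, smul_eq_mul, mul_comm]
  refine ⟨_, h, fun l => ?_⟩
  have h1 := h l ((∑ i, (ContinuousLinearMap.apply ℝ ℝ (e i)).smulRight (e i) :
    (V →L[ℝ] ℝ) →L[ℝ] V) l)
  generalize (∑ i, (ContinuousLinearMap.apply ℝ ℝ (e i)).smulRight (e i) :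
    (V →L[ℝ] ℝ) →L[ℝ] V) l = u at h1
  rw [real_inner_self_eq_norm_sq] at h1
  have h2 := l.le_opNorm u
  have h3 := le_abs_self (l u)
  rw [Real.norm_eq_abs] at h2
  by_contra h4
  have h5 := norm_nonneg l
  push Not at h4
  nlinarith

/-- the derivative along the fibre -/
noncomputable def D (H : EB × V → N) (z : EB × V) : V →L[ℝ] N := fderiv ℝ (fun y => H (z.1, y)) z.2

theorem D_smooth {H : EB × V → N} (hH : ContDiff ℝ ∞ H) : ContDiff ℝ ∞ (D H) :=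
  ContDiff.fderiv (f := fun (z : EB × V) (y : V) => H (z.1, y)) (m := ∞)
    (hH.comp ((contDiff_fst.comp contDiff_fst).prodMk contDiff_snd)) contDiff_snd (by simp)

theorem hasD {H : EB × V → N} (hH : ContDiff ℝ ∞ H) (b : EB) (y : V) :
    HasFDerivAt (fun y => H (b, y)) (D H (b, y)) y :=
  ((hH.comp (contDiff_const.prodMk contDiff_id)).differentiable (by simp) y).hasFDerivAt

theorem cont_snd : Continuous fun y : Fib U A => ‖y.snd‖ := (WithLp.sndL 2 ℝ U A).continuous.norm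

theorem cont_fst : Continuous fun y : Fib U A => y.fst := (WithLp.fstL 2 ℝ U A).continuous

/-- far out the family does not depend on the second variable of the fibre -/
def Far (K : ℝ) (H : EB × Fib U A → N) : Prop :=
  ∃ H₀ : EB × U → N, ContDiff ℝ ∞ H₀ ∧ ∀ b y, K < ‖y.snd‖ → H (b, y) = H₀ (b, y.fst)

theorem Far.D {K : ℝ} {H : EB × Fib U A → N} (h : Far K H) : Far K (D H) := by
  obtain ⟨H₀, h0, h1⟩ := h
  refine ⟨fun z => (Br.D H₀ z).comp (WithLp.fstL 2 ℝ U A),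
    (D_smooth h0).clm_comp contDiff_const, fun b y hy => ?_⟩
  have h2 : (fun y' => H (b, y')) =ᶠ[𝓝 y] fun y' => H₀ (b, y'.fst) := by
    filter_upwards [(isOpen_lt continuous_const cont_snd).mem_nhds hy] with y' hy'
    exact h1 b y' hy'
  have h3 := (hasD h0 b y.fst).comp y (WithLp.fstL 2 ℝ U A).hasFDerivAt
  exact h2.fderiv_eq.trans h3.fderiv

theorem norm_le (y : Fib U A) : ‖y‖ ≤ ‖y.fst‖ + ‖y.snd‖ := by
  have h := WithLp.prod_norm_sq_eq_of_L2 y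
  have h1 := norm_nonneg y.fst
  have h2 := norm_nonneg y.snd
  refine (pow_le_pow_iff_left₀ (norm_nonneg _) (by positivity) two_ne_zero).1 ?_
  nlinarith [mul_nonneg h1 h2]

theorem Far.bdd {K : ℝ} {H : EB × Fib U A → N} (h : Far K H) (hH : Continuous H) {B : Set EB}
    (hB : IsCompact B) (R : ℝ) : ∃ C, ∀ b ∈ B, ∀ y : Fib U A, ‖y.fst‖ ≤ R → ‖H (b, y)‖ ≤ C := by
  obtain ⟨H₀, h0, h1⟩ := h
  obtain ⟨C₁, c1⟩ := (hB.prod (isCompact_closedBall (0 : Fib U A) (R + K))).exists_bound_of_continuousOn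
    hH.continuousOn
  obtain ⟨C₂, c2⟩ := (hB.prod (isCompact_closedBall (0 : U) R)).exists_bound_of_continuousOn
    h0.continuous.continuousOn
  refine ⟨max C₁ C₂, fun b hb y hy => ?_⟩
  rcases lt_or_ge K ‖y.snd‖ with h2 | h2
  · rw [h1 b y h2]
    exact le_max_of_le_right (c2 (b, y.fst) ⟨hb, mem_closedBall_zero_iff.2 hy⟩)
  · exact le_max_of_le_left (c1 (b, y) ⟨hb, mem_closedBall_zero_iff.2 (by linarith [norm_le y])⟩)

theorem Far.lip {K : ℝ} {H : EB × Fib U A → N} (h : Far K H) (hH : ContDiff ℝ ∞ H) {B : Set EB}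
    (hB : IsCompact B) (R : ℝ) : ∃ L, ∀ b ∈ B, ∀ y y' : Fib U A, ‖y.fst‖ ≤ R → ‖y'.fst‖ ≤ R →
      ‖H (b, y) - H (b, y')‖ ≤ L * ‖y - y'‖ := by
  obtain ⟨L, hL⟩ := h.D.bdd (D_smooth hH).continuous hB R
  refine ⟨L, fun b hb y y' hy hy' => ?_⟩
  have hc : Convex ℝ ((WithLp.fstL 2 ℝ U A) ⁻¹' Metric.closedBall 0 R) :=
    (convex_closedBall (0 : U) R).linear_preimage (WithLp.fstL 2 ℝ U A).toLinearMap
  exact Convex.norm_image_sub_le_of_norm_fderiv_le (𝕜 := ℝ) (f := fun y => H (b, y))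
    (fun x _ => (hasD hH b x).differentiableAt)
    (fun x hx => hL b hb x (mem_closedBall_zero_iff.1 hx)) hc
    (mem_closedBall_zero_iff.2 hy') (mem_closedBall_zero_iff.2 hy)

/-- cut-off maps of all sizes with a uniform bound of the derivative -/
theorem exists_cut (A : Type) [NormedAddCommGroup A] [InnerProductSpace ℝ A]
    [FiniteDimensional ℝ A] : ∃ M : ℝ, 0 ≤ M ∧ ∀ L > 0, ∃ γ : A → A, ContDiff ℝ ∞ γ ∧
      (∀ η, ‖η‖ ≤ L → γ η = η) ∧ (∀ η, 2 * L < ‖η‖ → γ η = 0) ∧ ∀ η, ‖fderiv ℝ γ η‖ ≤ M := by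
  let χ : ContDiffBump (0 : A) := ⟨1, 2, one_pos, one_lt_two⟩
  have hs : ContDiff ℝ ∞ fun η : A => χ η • η := χ.contDiff.smul contDiff_id
  have hc : HasCompactSupport fun η : A => χ η • η := χ.hasCompactSupport.smul_right
  obtain ⟨M, hM⟩ := (hc.fderiv ℝ).exists_bound_of_continuous (hs.continuous_fderiv (by simp))
  refine ⟨M, (norm_nonneg _).trans (hM 0), fun L hL => ⟨fun η => L • (χ (L⁻¹ • η) • (L⁻¹ • η)),
    contDiff_const.smul (hs.comp (contDiff_const.smul contDiff_id)), fun η h => ?_, fun η h => ?_,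
    fun η => ?_⟩⟩
  · have h1 : ‖L⁻¹ • η‖ ≤ 1 := by
      rw [norm_smul, Real.norm_eq_abs, abs_of_pos (inv_pos.2 hL), inv_mul_le_iff₀ hL]
      linarith
    beta_reduce
    rw [χ.one_of_mem_closedBall (mem_closedBall_zero_iff.2 h1), one_smul, smul_smul,
      mul_inv_cancel₀ hL.ne', one_smul]
  · have h1 : 2 ≤ ‖L⁻¹ • η‖ := by
      rw [norm_smul, Real.norm_eq_abs, abs_of_pos (inv_pos.2 hL), le_inv_mul_iff₀ hL]
      linarith
    beta_reduce
    rw [χ.zero_of_le_dist (by rw [dist_zero_right]; exact h1), zero_smul, smul_zero]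
  · have h1 := (((hs.differentiable (by simp) (L⁻¹ • η)).hasFDerivAt).comp η
      ((hasFDerivAt_id η).const_smul L⁻¹)).const_smul L
    have h2 : fderiv ℝ (fun η => L • (χ (L⁻¹ • η) • (L⁻¹ • η))) η = _ := h1.fderiv
    rw [h2]
    refine le_trans (le_of_eq ?_) (hM (L⁻¹ • η))
    congr 1
    ext v
    simp [smul_smul, mul_inv_cancel₀ hL.ne']

/-- the cut-off map of the fibre -/
def ct (γ : A → A) (y : Fib U A) : Fib U A := WithLp.toLp 2 (y.fst, γ y.snd)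

theorem ct_smooth {γ : A → A} (h : ContDiff ℝ ∞ γ) : ContDiff ℝ ∞ (ct (U := U) γ) :=
  (WithLp.prodContinuousLinearEquiv 2 ℝ U A).symm.contDiff.comp
    ((WithLp.fstL 2 ℝ U A).contDiff.prodMk (h.comp (WithLp.sndL 2 ℝ U A).contDiff))

theorem ct_bd {γ : A → A} (h : ContDiff ℝ ∞ γ) {M : ℝ} (hM : ∀ η, ‖fderiv ℝ γ η‖ ≤ M)
    (y : Fib U A) : ‖fderiv ℝ (ct γ) y‖ ≤ 1 + M := by
  have h0 : 0 ≤ M := (norm_nonneg _).trans (hM 0)
  have h1 := (WithLp.prodContinuousLinearEquiv 2 ℝ U A).symm.hasFDerivAt.comp y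
    ((WithLp.fstL 2 ℝ U A).hasFDerivAt.prodMk
      ((h.differentiable (by simp) y.snd).hasFDerivAt.comp y (WithLp.sndL 2 ℝ U A).hasFDerivAt))
  have h2 : fderiv ℝ (ct γ) y = _ := h1.fderiv
  refine ContinuousLinearMap.opNorm_le_bound _ (by linarith) fun v => ?_
  have h3 : fderiv ℝ (ct γ) y v = WithLp.toLp 2 (v.fst, fderiv ℝ γ y.snd v.snd) := by
    rw [h2]
    rfl
  have h4 := norm_le (fderiv ℝ (ct γ) y v)
  rw [h3] at h4 ⊢
  have h5 : ‖v.fst‖ ≤ ‖v‖ := WithLp.norm_fst_le _ v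
  have h6 : ‖v.snd‖ ≤ ‖v‖ := WithLp.norm_snd_le _ v
  have h7 := (fderiv ℝ γ y.snd).le_of_opNorm_le_of_le (hM _) h6
  simp only [WithLp.toLp_fst, WithLp.toLp_snd] at h4
  linarith

/-- the gradient of the quadratic form -/
noncomputable def JJ (J : A →L[ℝ] A) : Fib U A →L[ℝ] Fib U A :=
  ((WithLp.prodContinuousLinearEquiv 2 ℝ U A).symm : U × A →L[ℝ] Fib U A).comp
    ((0 : Fib U A →L[ℝ] U).prod (J.comp (WithLp.sndL 2 ℝ U A)))

theorem JJ_fst (J : A →L[ℝ] A) (y : Fib U A) : (JJ J y).fst = 0 := rfl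

theorem JJ_snd (J : A →L[ℝ] A) (y : Fib U A) : (JJ J y).snd = J y.snd := rfl

theorem norm_J {J : A →L[ℝ] A} (hJ : IsInv J) (η : A) : ‖J η‖ = ‖η‖ := by
  have h := hJ.symm η (J η)
  rw [hJ.sq, real_inner_self_eq_norm_sq, real_inner_self_eq_norm_sq] at h
  exact (sq_eq_sq₀ (norm_nonneg _) (norm_nonneg _)).1 h

/-- the quadratic form -/
noncomputable def Qd (J : A →L[ℝ] A) (y : Fib U A) : ℝ := (1 / 2 : ℝ) * ⟪J y.snd, y.snd⟫

theorem Qd_smooth (J : A →L[ℝ] A) : ContDiff ℝ ∞ (Qd (U := U) J) :=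
  contDiff_const.mul ((J.comp (WithLp.sndL 2 ℝ U A)).contDiff.inner ℝ (WithLp.sndL 2 ℝ U A).contDiff)

theorem hasQ {J : A →L[ℝ] A} (hJ : IsInv J) (y : Fib U A) :
    HasFDerivAt (Qd J) (innerSL ℝ (JJ J y)) y := by
  have h1 := ((J.comp (WithLp.sndL 2 ℝ U A)).hasFDerivAt (x := y)).inner ℝ
    ((WithLp.sndL 2 ℝ U A).hasFDerivAt (x := y))
  refine (h1.const_mul (1 / 2 : ℝ)).congr_fderiv ?_
  ext v
  have h2 : ⟪JJ J y, v⟫ = ⟪J y.snd, v.snd⟫ := by
    rw [WithLp.prod_inner_apply]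
    change ⟪(0 : U), _⟫ + ⟪J y.snd, v.snd⟫ = _
    rw [inner_zero_left, zero_add]
  rw [innerSL_apply_apply, h2]
  change (1 / 2 : ℝ) * (⟪J y.snd, v.snd⟫ + ⟪J v.snd, y.snd⟫) = _
  rw [hJ.symm v.snd, real_inner_comm v.snd]
  ring

/-- the fibre gradient of `H + Qd J` -/
theorem grad {J : A →L[ℝ] A} (hJ : IsInv J) {T : (Fib U A →L[ℝ] ℝ) →L[ℝ] Fib U A}
    (hT : ∀ l v, ⟪T l, v⟫ = l v) {H : EB × Fib U A → ℝ} (hH : ContDiff ℝ ∞ H) (b : EB)
    (y : Fib U A) :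
    HasFDerivAt (fun y => H (b, y) + Qd J y) (innerSL ℝ (T (D H (b, y)) + JJ J y)) y := by
  refine ((hasD hH b y).add (hasQ hJ y)).congr_fderiv ?_
  ext v
  rw [innerSL_apply_apply, inner_add_left, hT, add_apply, innerSL_apply_apply]

/-- at a zero of the gradient the second variable is bounded -/
theorem snd_le {J : A →L[ℝ] A} (hJ : IsInv J) {u y : Fib U A} (h : u + JJ J y = 0) :
    ‖y.snd‖ ≤ ‖u‖ := by
  rw [← norm_J hJ, ← JJ_snd, eq_neg_of_add_eq_zero_left h, norm_neg]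
  exact WithLp.norm_snd_le _ _

/-- the gradient of an invariant function is equivariant -/
theorem equi_of_grad (e : V ≃ₗᵢ[ℝ] V) {f f' : V → ℝ} {u u' y : V} (h : ∀ z, f' (e z) = f z)
    (h1 : HasFDerivAt f (innerSL ℝ u) y) (h2 : HasFDerivAt f' (innerSL ℝ u') (e y)) : u' = e u := by
  have h3 := h2.comp y e.toContinuousLinearEquiv.hasFDerivAt
  have h4 : f' ∘ e = f := funext h
  have h5 := h1.unique (h4 ▸ h3)
  refine ext_inner_right ℝ fun v => ?_
  obtain ⟨z, rfl⟩ := e.surjective v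
  rw [e.inner_map_map]
  exact (congrArg (fun l : V →L[ℝ] ℝ => l z) h5).symm

end Br

end Vale.Agent.P220Z.Top
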