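import Vale.Agent.P220Z.Top.BrA

/-!
# P220, the bridge: rigid data from a bounded perturbation of the quadratic form
-/

open Set Filter Topology
open scoped ContDiff RealInnerProductSpace

set_option linter.unusedSectionVars false

namespace Vale.Agent.P220Z.Top

namespace Br

open Vale.Agent.P220Z.Dyn

variable {G : Type} [Group G] {EB : Type} [NormedAddCommGroup EB] [InnerProductSpace ℝ EB]
  {U : Type} [NormedAddCommGroup U] [InnerProductSpace ℝ U] [FiniteDimensional ℝ U]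
  {A : Type} [NormedAddCommGroup A] [InnerProductSpace ℝ A] [FiniteDimensional ℝ A]

/-- near the boundary of the domain the differential is bounded below -/
theorem exists_low {φ : U → ℝ} (hφ : IsReg φ) (R : ℝ) :
    ∃ m > 0, ∀ x, ‖x‖ ≤ R → |φ x| ≤ m → m ≤ ‖fderiv ℝ φ x‖ := by
  obtain ⟨m, hm, h⟩ := (isCompact_closedBall (0 : U) R).exists_forall_le'
    (f := fun x => ‖fderiv ℝ φ x‖ + |φ x|) (a := 0)
    ((hφ.smooth.continuous_fderiv (by simp)).norm.add hφ.smooth.continuous.abs).continuousOn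
    fun x _ => by
      by_cases h : φ x = 0
      · exact add_pos_of_pos_of_nonneg (norm_pos_iff.2 (hφ.reg x h)) (abs_nonneg _)
      · exact add_pos_of_nonneg_of_pos (norm_nonneg _) (abs_pos.2 h)
  refine ⟨m / 2, half_pos hm, fun x hx h1 => ?_⟩
  have h2 := h x (mem_closedBall_zero_iff.2 hx)
  linarith

/-- in the collar the derivative along `U` is `κ dφ` -/
theorem D_col {φ : U → ℝ} (hφ : ContDiff ℝ ∞ φ) {H : EB × Fib U A → ℝ} (hH : ContDiff ℝ ∞ H)
    {b : EB} {R δ κ : ℝ} {h : A → ℝ}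
    (hc : ∀ y : Fib U A, ‖y.fst‖ ≤ R → |φ y.fst| ≤ δ → H (b, y) = κ * φ y.fst + h y.snd)
    {y : Fib U A} (h1 : ‖y.fst‖ < R) (h2 : |φ y.fst| < δ) (v : U) :
    D H (b, y) (WithLp.toLp 2 (v, 0)) = κ * fderiv ℝ φ y.fst v := by
  have l1 := Per.Aux.hasDerivAt_line y (WithLp.toLp 2 (v, 0)) 0
  have l2 := Per.Aux.hasDerivAt_line y.fst v 0
  have e1 : HasFDerivAt (fun y => H (b, y)) (D H (b, y))
      (y + (0 : ℝ) • (WithLp.toLp 2 (v, 0) : Fib U A)) := by
    rw [zero_smul, add_zero]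
    exact hasD hH b y
  have e2 : HasFDerivAt φ (fderiv ℝ φ y.fst) (y.fst + (0 : ℝ) • v) := by
    rw [zero_smul, add_zero]
    exact (hφ.differentiable (by simp) _).hasFDerivAt
  have d1 := e1.comp_hasDerivAt (0 : ℝ) l1
  have d2 := ((e2.comp_hasDerivAt (0 : ℝ) l2).const_mul κ).add_const (h y.snd)
  refine d1.unique (d2.congr_of_eventuallyEq ?_)
  have c1 : Continuous fun t : ℝ => y.fst + t • v := by fun_prop
  have o1 : IsOpen {t : ℝ | ‖y.fst + t • v‖ < R ∧ |φ (y.fst + t • v)| < δ} :=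
    (isOpen_lt c1.norm continuous_const).inter
      (isOpen_lt (hφ.continuous.comp c1).abs continuous_const)
  filter_upwards [o1.mem_nhds (show (0 : ℝ) ∈ _ by simpa using ⟨h1, h2⟩)] with t ht
  have h3 : (y + t • (WithLp.toLp 2 (v, 0) : Fib U A)).snd = y.snd := by simp
  have h4 := hc (y + t • (WithLp.toLp 2 (v, 0) : Fib U A)) ht.1.le ht.2.le
  rw [h3] at h4
  exact h4

theorem face_le {l : U →L[ℝ] ℝ} {g : U} {κ m : ℝ} (hκ : 0 < κ) (hm : 0 < m) (h : m ≤ ‖l‖)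
    (hg : ∀ v, ⟪g, v⟫ = κ * l v) : κ * m ^ 2 ≤ l g := by
  have h1 : ‖l‖ ≤ ‖g‖ / κ := by
    refine l.opNorm_le_bound (by positivity) fun v => ?_
    have h2 := abs_real_inner_le_norm g v
    rw [hg, abs_mul, abs_of_pos hκ] at h2
    rw [Real.norm_eq_abs, div_mul_eq_mul_div, le_div_iff₀ hκ]
    linarith
  have h2 := hg g
  rw [real_inner_self_eq_norm_sq] at h2
  have h3 : κ * m ≤ ‖g‖ := by
    rw [le_div_iff₀ hκ] at h1
    nlinarith
  have h4 : (κ * m) ^ 2 ≤ ‖g‖ ^ 2 := pow_le_pow_left₀ (by positivity) h3 2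
  by_contra h5
  push Not at h5
  nlinarith

theorem core {β : G →* (EB ≃ₗᵢ[ℝ] EB)} {B : Set EB} {ρ : G →* (U ≃ₗᵢ[ℝ] U)} {φ : U → ℝ}
    {J : A →L[ℝ] A} {H : EB × Fib U A → ℝ} {R δ κ C : ℝ} (hB : IsCompact B)
    (act : ∀ g, ∀ b ∈ B, β g b ∈ B) (hφ : IsReg φ) (invφ : ∀ g x, φ (ρ g x) = φ x) (hJ : IsInv J)
    (hH : ContDiff ℝ ∞ H) (inv : ∀ g, ∀ b ∈ B, ∀ y, H (β g b, trivExt A ρ g y) = H (b, y))
    (hR : ∀ x, R ≤ ‖x‖ → 0 < φ x) (hδ : 0 < δ) (hκ : 0 < κ)
    (bd : ∀ b ∈ B, ∀ y : Fib U A, ‖y.fst‖ ≤ R + 1 → ‖D H (b, y)‖ ≤ C)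
    (col : ∀ b ∈ B, ∃ h : A → ℝ, ∀ y : Fib U A, ‖y.fst‖ ≤ R + 1 → |φ y.fst| ≤ δ →
      H (b, y) = κ * φ y.fst + h y.snd)
    (rig : ∀ b ∈ B, ∃ c : Fib U A, φ c.fst ≤ 0 ∧ D (fun z => H z + Qd J z.2) (b, c) = 0 ∧
      Function.Injective (fderiv ℝ (fun y => D (fun z => H z + Qd J z.2) (b, y)) c) ∧
      ∀ w : Fib U A, φ w.fst < 0 → D (fun z => H z + Qd J z.2) (b, w) = 0 → w = c) :
    ∃ (R L C e₀ c₀ : ℝ) (F : EB × Fib U A → ℝ) (X : EB × Fib U A → Fib U A),
      IsRD β B (trivExt A ρ) φ J R L C e₀ c₀ F X := by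
  obtain ⟨T, hT, hT'⟩ := exists_T (Fib U A)
  obtain ⟨M, hM0, hM⟩ := exists_cut A
  obtain ⟨m, hm, hm'⟩ := exists_low hφ R
  have hL : 0 < |C| * (1 + M) + 1 := by positivity
  obtain ⟨γ, g1, g2, g3, g4⟩ := hM _ hL
  have hlt : ∀ x, φ x ≤ 0 → ‖x‖ < R := fun x hx => lt_of_not_ge fun h => (hR x h).not_ge hx
  have s1 : ContDiff ℝ ∞ fun z : EB × Fib U A => H (z.1, ct γ z.2) :=
    hH.comp (contDiff_fst.prodMk ((ct_smooth g1).comp contDiff_snd))
  generalize hH' : (fun z : EB × Fib U A => H (z.1, ct γ z.2)) = H' at s1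
  have e1 : ∀ b y, H' (b, y) = H (b, ct γ y) := fun b y => by rw [← hH']
  have far : Far (2 * (|C| * (1 + M) + 1)) H' :=
    ⟨fun z => H (z.1, WithLp.toLp 2 (z.2, 0)), hH.comp (contDiff_fst.prodMk
      ((WithLp.prodContinuousLinearEquiv 2 ℝ U A).symm.contDiff.comp
        (contDiff_snd.prodMk contDiff_const))), fun b y hy => by rw [e1, ct, g3 _ hy]⟩
  have bd' : ∀ b ∈ B, ∀ y : Fib U A, ‖y.fst‖ ≤ R + 1 → ‖D H' (b, y)‖ ≤ |C| * (1 + M) := by
    intro b hb y hy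
    have h1 := (hasD hH b (ct γ y)).comp y ((ct_smooth g1).differentiable (by simp) y).hasFDerivAt
    have h2 : D H' (b, y) = (D H (b, ct γ y)).comp (fderiv ℝ (ct γ) y) := by
      rw [← hH']
      exact h1.fderiv
    rw [h2]
    exact (ContinuousLinearMap.opNorm_comp_le _ _).trans (mul_le_mul
      ((bd b hb (ct γ y) hy).trans (le_abs_self C)) (ct_bd g1 g4 y) (norm_nonneg _) (abs_nonneg _))
  obtain ⟨L, hLip⟩ := far.D.lip (D_smooth s1) hB (R + 1)
  have sX : ContDiff ℝ ∞ fun z : EB × Fib U A => T (D H' z) + JJ J z.2 :=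
    (T.contDiff.comp (D_smooth s1)).add ((JJ (U := U) J).contDiff.comp contDiff_snd)
  have face : ∀ b ∈ B, ∀ w : Fib U A, -min (δ / 2) m ≤ φ w.fst → φ w.fst ≤ 0 →
      κ * m ^ 2 ≤ fderiv ℝ φ w.fst (T (D H' (b, w)) + JJ J w).fst := by
    intro b hb w h1 h2
    obtain ⟨h, hc⟩ := col b hb
    have h3 := min_le_left (δ / 2) m
    have h4 := min_le_right (δ / 2) m
    refine face_le hκ hm (hm' _ (hlt _ h2).le (abs_le.2 ⟨by linarith, by linarith⟩)) fun v => ?_
    rw [← D_col hφ.smooth s1 (h := fun η => h (γ η)) (R := R + 1) (δ := δ)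
      (fun y k1 k2 => (e1 b y).trans (hc (ct γ y) k1 k2)) (by linarith [hlt _ h2])
      (abs_lt.2 ⟨by linarith, by linarith⟩) v, ← hT, WithLp.prod_inner_apply, WithLp.add_fst,
      JJ_fst, add_zero]
    exact (add_zero _).symm.trans (congrArg _ (inner_zero_right _).symm)
  have loc : ∀ b, ∀ y : Fib U A, ‖y.snd‖ < |C| * (1 + M) + 1 →
      D (fun z => H z + Qd J z.2) (b, y) = innerSL ℝ (T (D H' (b, y)) + JJ J y) := by
    intro b y hy
    refine ((grad hJ hT s1 b y).congr_of_eventuallyEq ?_).fderiv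
    filter_upwards [(isOpen_lt cont_snd continuous_const).mem_nhds hy] with y' hy'
    rw [e1, ct, g2 _ (le_of_lt hy')]
    rfl
  refine ⟨R + 1, L + ‖JJ (U := U) J‖, |C| * (1 + M), min (δ / 2) m, κ * m ^ 2,
    fun z => H' z + Qd J z.2, fun z => T (D H' z) + JJ J z.2, hB, act, fun g w => invφ g w.fst, hJ,
    ⟨hφ.smooth.of_le (WithTop.coe_le_coe.2 le_top), fun x hx => by linarith [hlt x hx]⟩, lt_min (half_pos hδ) hm,
    by positivity, ⟨sX.continuous, fun g b hb w => ?_, fun b hb w w' h1 h2 => ?_,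
      fun b hb w h1 => ?_, face⟩,
    s1.continuous.add ((Qd_smooth J).continuous.comp continuous_snd), sX.of_le (by simp),
    fun b w => grad hJ hT s1 b w, fun b hb => ?_⟩
  · refine equi_of_grad (trivExt A ρ g) (fun z => ?_) (grad hJ hT s1 b w)
      (grad hJ hT s1 (β g b) _)
    rw [e1, e1, ← inv g b hb (ct γ z)]
    rfl
  · have h3 : T (D H' (b, w)) + JJ J w - (T (D H' (b, w')) + JJ J w') =
        T (D H' (b, w) - D H' (b, w')) + JJ J (w - w') := by
      rw [map_sub, map_sub]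
      abel
    have h4 := hT' (D H' (b, w) - D H' (b, w'))
    have h5 := (JJ (U := U) J).le_opNorm (w - w')
    have h6 := hLip b hb w w' h1 h2
    have h7 := norm_add_le (T (D H' (b, w) - D H' (b, w'))) (JJ J (w - w'))
    rw [h3]
    linarith
  · have h2 := (hT' _).trans (bd' b hb w h1)
    rw [WithLp.add_fst, WithLp.add_snd, JJ_fst, JJ_snd, add_zero, add_sub_cancel_right]
    exact ⟨(WithLp.norm_fst_le _ _).trans h2, (WithLp.norm_snd_le _ _).trans h2⟩
  · obtain ⟨c, c1, c2, c3, c4⟩ := rig b hb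
    have k1 : ‖c.snd‖ < |C| * (1 + M) + 1 := by
      have h1 : D (fun z => H z + Qd J z.2) (b, c) = innerSL ℝ (T (D H (b, c)) + JJ J c) :=
        (grad hJ hT hH b c).fderiv
      have h2 : T (D H (b, c)) + JJ J c = 0 := by
        rw [← norm_eq_zero, ← innerSL_apply_norm ℝ, ← h1, c2, norm_zero]
      have h3 := (snd_le hJ h2).trans ((hT' _).trans (bd b hb c (by linarith [hlt _ c1])))
      nlinarith [le_abs_self C, mul_nonneg (abs_nonneg C) hM0]
    refine ⟨c, c1, ?_, fun u v huv => c3 ?_, fun w w1 w2 => c4 w ?_ ?_⟩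
    · rw [← norm_eq_zero, ← innerSL_apply_norm ℝ, ← loc b c k1, c2, norm_zero]
    · have h1 : (fun y => D (fun z => H z + Qd J z.2) (b, y)) =ᶠ[𝓝 c]
          fun y => innerSL ℝ (T (D H' (b, y)) + JJ J y) := by
        filter_upwards [(isOpen_lt cont_snd continuous_const).mem_nhds k1] with y hy
        exact loc b y hy
      have h2 := (innerSL ℝ (E := Fib U A)).hasFDerivAt.comp c (hasD sX b c)
      have h3 := (h2.congr_of_eventuallyEq h1).fderiv
      rw [h3]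
      exact congrArg (innerSL ℝ) huv
    · refine lt_of_le_of_ne w1 fun h => ?_
      have h1 := face b hb w (by linarith [lt_min (half_pos hδ) hm]) w1
      have h2 : T (D H' (b, w)) + JJ J w = 0 := w2
      rw [h2, WithLp.zero_fst, map_zero] at h1
      exact h1.not_gt (by positivity)
    · have h2 : T (D H' (b, w)) + JJ J w = 0 := w2
      have h3 := (snd_le hJ h2).trans ((hT' _).trans (bd' b hb w (by linarith [hlt _ w1])))
      rw [loc b w (by linarith), h2, map_zero]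

end Br

end Vale.Agent.P220Z.Top
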