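import Vale.Agent.P220Z.Top.BrB

/-!
# P220, the bridge: a rigid structured stabilisation gives rigid data
-/

open Set Filter Topology
open scoped ContDiff RealInnerProductSpace

set_option linter.unusedSectionVars false

namespace Vale.Agent.P220Z.Top

namespace Br

open Vale.Agent.P220Z.Dyn Vale.Agent.P220Z.Per Vale.Agent.P220Z.Cn

variable {EB : Type} [NormedAddCommGroup EB] [InnerProductSpace ℝ EB]
  {E : Type} [NormedAddCommGroup E] [InnerProductSpace ℝ E]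
  {U : Type} [NormedAddCommGroup U] [InnerProductSpace ℝ U] [FiniteDimensional ℝ U]
  {Z : Type} [NormedAddCommGroup Z] [InnerProductSpace ℝ Z] [FiniteDimensional ℝ Z]

/-- the involution that takes the pair ξ, p to the pair -p, -ξ -/
noncomputable def Js (Z : Type) [NormedAddCommGroup Z] [InnerProductSpace ℝ Z] :
    WithLp 2 (Z × Z) →L[ℝ] WithLp 2 (Z × Z) :=
  ((WithLp.prodContinuousLinearEquiv 2 ℝ Z Z).symm : Z × Z →L[ℝ] WithLp 2 (Z × Z)).comp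
    ((-WithLp.sndL 2 ℝ Z Z).prod (-WithLp.fstL 2 ℝ Z Z))

theorem inner_Js (u v : WithLp 2 (Z × Z)) : ⟪Js Z u, v⟫ = -⟪u.snd, v.fst⟫ - ⟪u.fst, v.snd⟫ := by
  rw [WithLp.prod_inner_apply]
  change ⟪-u.snd, v.fst⟫ + ⟪-u.fst, v.snd⟫ = _
  rw [inner_neg_left, inner_neg_left]
  ring

theorem Js_inv : IsInv (Js Z) where
  symm u v := by
    rw [real_inner_comm (Js Z v), inner_Js, inner_Js, real_inner_comm v.fst, real_inner_comm v.snd]
    ring
  sq u := by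
    change WithLp.toLp 2 (- -u.fst, - -u.snd) = u
    rw [neg_neg, neg_neg]
    rfl

theorem Qd_Js (y : St U Z) : Qd (Js Z) y = -⟪y.snd.snd, y.snd.fst⟫ := by
  rw [Qd, inner_Js, real_inner_comm y.snd.snd]
  ring

/-- the family without the quadratic form -/
def hf (sg : E × Z → E) (w : E × (Z × Z) → ℝ) (F : E × U → ℝ) (z : E × St U Z) : ℝ :=
  F (sg (z.1, z.2.snd.fst), z.2.fst) + w (z.1, (z.2.snd.fst, z.2.snd.snd))

theorem hf_add (sg : E × Z → E) (w : E × (Z × Z) → ℝ) (F : E × U → ℝ) (z : E × St U Z) :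
    hf sg w F z + Qd (Js Z) z.2 = strF sg w F z := by
  rw [Qd_Js, hf, strF]
  ring

/-- the three coordinates of the fibre -/
noncomputable def xL : St U Z →L[ℝ] U := WithLp.fstL 2 ℝ U _

/-- the three coordinates of the fibre -/
noncomputable def ξL : St U Z →L[ℝ] Z := (WithLp.fstL 2 ℝ Z Z).comp (WithLp.sndL 2 ℝ U _)

/-- the three coordinates of the fibre -/
noncomputable def pL : St U Z →L[ℝ] Z := (WithLp.sndL 2 ℝ Z Z).comp (WithLp.sndL 2 ℝ U _)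

theorem hf_smooth {sg : E × Z → E} {w : E × (Z × Z) → ℝ} {F : E × U → ℝ} (h1 : ContDiff ℝ ∞ sg)
    (h2 : ContDiff ℝ ∞ w) (h3 : ContDiff ℝ ∞ F) : ContDiff ℝ ∞ (hf sg w F) :=
  (h3.comp ((h1.comp (contDiff_fst.prodMk ((ξL (U := U)).contDiff.comp contDiff_snd))).prodMk
    ((xL (Z := Z)).contDiff.comp contDiff_snd))).add (h2.comp (contDiff_fst.prodMk
      (((ξL (U := U)).contDiff.comp contDiff_snd).prodMk
        ((pL (U := U)).contDiff.comp contDiff_snd))))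

theorem hf_bd {sg : E × Z → E} {w : E × (Z × Z) → ℝ} {F : E × U → ℝ} (h1 : ContDiff ℝ ∞ sg)
    (h2 : ContDiff ℝ ∞ w) (h3 : ContDiff ℝ ∞ F) {b : E} {y : St U Z} {C C' : ℝ}
    (k1 : ‖fderiv ℝ sg (b, y.snd.fst)‖ ≤ C) (k2 : ‖fderiv ℝ w (b, (y.snd.fst, y.snd.snd))‖ ≤ C)
    (k3 : ‖fderiv ℝ F (sg (b, y.snd.fst), y.fst)‖ ≤ C') :
    ‖D (hf sg w F) (b, y)‖ ≤ C' * (C + 1) + C := by
  have hC : 0 ≤ C := (ContinuousLinearMap.opNorm_nonneg _).trans k1
  have hC' : 0 ≤ C' := (ContinuousLinearMap.opNorm_nonneg _).trans k3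
  have d0 := hasFDerivAt_const (𝕜 := ℝ) b y
  have d1 := (h1.differentiable (by simp) (b, y.snd.fst)).hasFDerivAt.comp y
    (d0.prodMk (ξL (U := U) (Z := Z)).hasFDerivAt)
  have d2 := (h3.differentiable (by simp) (sg (b, y.snd.fst), y.fst)).hasFDerivAt.comp y
    (d1.prodMk (xL (U := U) (Z := Z)).hasFDerivAt)
  have d3 := (h2.differentiable (by simp) (b, (y.snd.fst, y.snd.snd))).hasFDerivAt.comp y
    (d0.prodMk ((ξL (U := U) (Z := Z)).hasFDerivAt.prodMk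
      (pL (U := U) (Z := Z)).hasFDerivAt))
  have d4 : D (hf sg w F) (b, y) = _ := (d2.add d3).fderiv
  refine ContinuousLinearMap.opNorm_le_bound _ (by positivity) fun v => ?_
  have d5 : D (hf sg w F) (b, y) v =
      fderiv ℝ F (sg (b, y.snd.fst), y.fst) (fderiv ℝ sg (b, y.snd.fst) (0, v.snd.fst), v.fst) +
        fderiv ℝ w (b, (y.snd.fst, y.snd.snd)) (0, (v.snd.fst, v.snd.snd)) := by
    rw [d4]
    rfl
  have n0 := norm_nonneg v
  have n1 : ‖v.fst‖ ≤ ‖v‖ := WithLp.norm_fst_le _ v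
  have n2 : ‖v.snd.fst‖ ≤ ‖v‖ := (WithLp.norm_fst_le _ v.snd).trans (WithLp.norm_snd_le _ v)
  have n3 : ‖v.snd.snd‖ ≤ ‖v‖ := (WithLp.norm_snd_le _ v.snd).trans (WithLp.norm_snd_le _ v)
  have n4 : ‖((0 : E), v.snd.fst)‖ ≤ ‖v‖ := norm_prod_le_iff.2 ⟨by rwa [norm_zero], n2⟩
  have n5 : ‖((0 : E), (v.snd.fst, v.snd.snd))‖ ≤ ‖v‖ :=
    norm_prod_le_iff.2 ⟨by rwa [norm_zero], norm_prod_le_iff.2 ⟨n2, n3⟩⟩
  have n6 := (fderiv ℝ sg (b, y.snd.fst)).le_of_opNorm_le_of_le k1 n4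
  have n7 : ‖(fderiv ℝ sg (b, y.snd.fst) (0, v.snd.fst), v.fst)‖ ≤ (C + 1) * ‖v‖ :=
    norm_prod_le_iff.2 ⟨by linarith, by nlinarith⟩
  have n8 := (fderiv ℝ F (sg (b, y.snd.fst), y.fst)).le_of_opNorm_le_of_le k3 n7
  have n9 := (fderiv ℝ w (b, (y.snd.fst, y.snd.snd))).le_of_opNorm_le_of_le k2 n5
  rw [d5]
  refine (norm_add_le _ _).trans ?_
  linarith

theorem isCompact_QtOf {B : Set EB} (hB : IsCompact B) : IsCompact (QtOf U B) := by
  have h : QtOf U B = WithLp.toLp 2 '' (B ×ˢ Metric.sphere (0 : U) 1) := by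
    ext q
    constructor
    · intro hq
      exact ⟨(q.fst, q.snd), ⟨hq.1, mem_sphere_zero_iff_norm.2 hq.2⟩, rfl⟩
    · rintro ⟨p, hp, rfl⟩
      exact ⟨hp.1, mem_sphere_zero_iff_norm.1 hp.2⟩
  rw [h]
  exact (hB.prod (isCompact_sphere _ _)).image (WithLp.prod_continuous_toLp _ _ _)

theorem isCompact_B : IsCompact Def.B5 := by
  have h : Def.B5 = WithLp.toLp 2 '' (Metric.sphere (0 : EuclideanSpace ℂ (Fin 2)) 1 ×ˢ
      Metric.sphere (0 : EuclideanSpace ℂ (Fin 9)) 1) := by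
    ext b
    constructor
    · rintro ⟨h1, h2⟩
      exact ⟨(b.fst, b.snd), ⟨mem_sphere_zero_iff_norm.2 h1, mem_sphere_zero_iff_norm.2 h2⟩, rfl⟩
    · rintro ⟨⟨u, v⟩, ⟨h1, h2⟩, rfl⟩
      exact ⟨mem_sphere_zero_iff_norm.1 h1, mem_sphere_zero_iff_norm.1 h2⟩
  rw [h]
  exact ((isCompact_sphere _ _).prod (isCompact_sphere _ _)).image
    (WithLp.prod_continuous_toLp 2 _ _)

theorem act_B (g : Def.G5) (b : Def.EB5) (hb : b ∈ Def.B5) : Def.β5 g b ∈ Def.B5 :=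
  ⟨((Def.rot 2 _).norm_map b.fst).trans hb.1, ((Def.rot 9 _).norm_map b.snd).trans hb.2⟩

end Br

open Vale.Agent.P220Z.Per Vale.Agent.P220Z.Cn Br in
theorem stBridge : StBridge := by
  intro U _ _ _ ρ φ θ hθ hfix hφ invφ hno a F Z _ _ _ sg w hF hbar hstr _ hrig hwin
  obtain ⟨δ, hδ, κ, hκ, R, hR, hcol⟩ := hbar.col
  obtain ⟨C, hC⟩ := hstr.bdd
  obtain ⟨C', hC'⟩ := ((isCompact_QtOf (U := U) isCompact_B).prod
    (isCompact_closedBall (0 : U) (R + 1))).exists_bound_of_continuousOn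
      (hF.smooth.continuous_fderiv (by simp)).continuousOn
  have hs := hf_smooth hstr.ssg hstr.sw hF.smooth
  have hι : ∀ b ∈ Def.B5, (WithLp.toLp 2 (b, θ) : Bs Def.EB5 U) ∈ QtOf U Def.B5 :=
    fun b hb => ⟨hb, hθ⟩
  have hα : ∀ g b, (WithLp.toLp 2 (Def.β5 g b, θ) : Bs Def.EB5 U) =
      prodRep Def.β5 ρ g (WithLp.toLp 2 (b, θ)) := fun g b => by
    conv_lhs => rw [← hfix g]
    rfl
  have hD : ∀ (b : Def.EB5) (y : St U Z), D (fun z : Def.EB5 × St U Z =>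
      hf sg w F (WithLp.toLp 2 (z.1, θ), z.2) + Qd (Js Z) z.2) (b, y) =
        dV (strF sg w F) (WithLp.toLp 2 (b, θ)) y := fun b y =>
    congrArg (fun f => fderiv ℝ f y) (funext fun y' => hf_add sg w F (WithLp.toLp 2 (b, θ), y'))
  obtain ⟨R', L, C₀, e₀, c₀, F', X, h⟩ := core (β := Def.β5) (ρ := ρ) (J := Js Z)
    (H := fun z => hf sg w F (WithLp.toLp 2 (z.1, θ), z.2)) (C := C' * (C + 1) + C) isCompact_B
    act_B hφ invφ Js_inv
    (hs.comp (((WithLp.prodContinuousLinearEquiv 2 ℝ Def.EB5 U).symm.contDiff.comp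
      (contDiff_fst.prodMk contDiff_const)).prodMk contDiff_snd))
    (fun g b hb y => by
      have h1 := hstr.equi g _ (hι b hb) y.snd.fst
      have h2 := hstr.inv g _ (hι b hb) (y.snd.fst, y.snd.snd)
      have h3 := hF.inv g _ (hstr.mem _ (hι b hb) y.snd.fst) y.fst
      rw [← h1, ← hα] at h3
      rw [← hα] at h2
      exact congrArg₂ (· + ·) h3 h2)
    hR hδ hκ
    (fun b hb y hy => hf_bd (b := WithLp.toLp 2 (b, θ)) hstr.ssg hstr.sw hF.smooth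
      (hC _ (hι b hb) y.snd.fst y.snd.snd).1 (hC _ (hι b hb) y.snd.fst y.snd.snd).2.2
      (hC' (_, _) ⟨hstr.mem _ (hι b hb) _, mem_closedBall_zero_iff.2 hy⟩))
    (fun b hb => ⟨fun η => a + w (WithLp.toLp 2 (b, θ), (η.fst, η.snd)), fun y h1 h2 => by
      have h3 := hcol _ (hstr.mem _ (hι b hb) y.snd.fst) y.fst h1 h2
      rw [hf, h3]
      ring⟩)
    (fun b hb => by
      obtain ⟨c, c1, c2, c3, c4⟩ := hrig _ (hι b hb)
      refine ⟨c, ?_, (hD b c).trans c1, ?_, fun y y1 y2 => ?_⟩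
      · have h1 := (abs_lt.1 ((hwin _ (hι b hb) c c1).1 c2)).2
        exact le_of_not_gt fun h2 => h1.not_gt (hbar.gt _ (hstr.mem _ (hι b hb) _) _ h2)
      · rw [funext (hD b)]
        exact c3
      · rw [hD] at y2
        exact c4 y y2 ((hwin _ (hι b hb) y y2).2 (abs_lt.2
          ⟨hbar.low _ (hstr.mem _ (hι b hb) _) _, hbar.lt _ (hstr.mem _ (hι b hb) _) _ y1⟩)))
  exact hno ⟨_, inferInstance, inferInstance, inferInstance, _, _, _, _, _, _, _, _, h⟩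

end Vale.Agent.P220Z.Top
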