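import Vale.Agent.P220Z.Top.Defs
import Vale.Agent.P220Z.Def.Defs

/-!
# P220: the interface with a constant domain

The domain `{φ₀ ≤ 0} ⊂ U` is invariant and is joined to the unit ball by a path of domains. The
family of domains over `B` is trivialised by fibre diffeomorphisms.
-/

open Set
open scoped ContDiff RealInnerProductSpace

namespace Vale.Agent.P220Z.Top

open Vale.Agent.P220.R2.H57 Vale.Agent.P220Z.Per Vale.Agent.P220Z.Cn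

section

variable {G : Type} [Group G]
  {EB : Type} [NormedAddCommGroup EB] [InnerProductSpace ℝ EB]
  {U : Type} [NormedAddCommGroup U] [InnerProductSpace ℝ U]

/-- a smooth path of compact domains with smooth boundary from `{φ₀ ≤ 0}` to `{φ₁ ≤ 0}` -/
structure IsPath (φ₀ φ₁ : U → ℝ) (ψ : ℝ × U → ℝ) : Prop where
  smooth : ContDiff ℝ ∞ ψ
  zero : ∀ x, ψ (0, x) = φ₀ x
  one : ∀ x, ψ (1, x) = φ₁ x
  bdd : ∃ R, ∀ t ∈ Icc (0 : ℝ) 1, ∀ x, R ≤ ‖x‖ → 0 < ψ (t, x)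
  reg : ∀ t ∈ Icc (0 : ℝ) 1, ∀ x, ψ (t, x) = 0 → fderiv ℝ (fun y => ψ (t, y)) x ≠ 0

/-- the two domains are joined by a path of domains -/
def Joined (φ₀ φ₁ : U → ℝ) : Prop := ∃ ψ, IsPath φ₀ φ₁ ψ

/-- The sublevel sets `{F ≤ a}` of the family `F` over `B × S(U)` are the domain of `φ₀`, and near
its boundary `F` is an increasing affine function of `φ₀`. -/
structure IsBarC (B : Set EB) (φ₀ : U → ℝ) (a : ℝ) (F : Bs EB U × U → ℝ) : Prop where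
  low : ∀ z ∈ QtOf U B, ∀ x, -a < F (z, x)
  lt : ∀ z ∈ QtOf U B, ∀ x, φ₀ x < 0 → F (z, x) < a
  gt : ∀ z ∈ QtOf U B, ∀ x, 0 < φ₀ x → a < F (z, x)
  col : ∃ δ > 0, ∃ κ > 0, ∃ R : ℝ, (∀ x, R ≤ ‖x‖ → 0 < φ₀ x) ∧
    ∀ z ∈ QtOf U B, ∀ x, ‖x‖ ≤ R + 1 → |φ₀ x| ≤ δ → F (z, x) = a + κ * φ₀ x

/-- No family with the domain of `φ₀` as sublevel sets has a rigid structured stabilisation. -/
def NoRigidC (β : G →* (EB ≃ₗᵢ[ℝ] EB)) (B : Set EB) (ρ : G →* (U ≃ₗᵢ[ℝ] U)) (φ₀ : U → ℝ) :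
    Prop :=
  ∀ (a : ℝ) (F : Bs EB U × U → ℝ) (Z : Type) [NormedAddCommGroup Z] [InnerProductSpace ℝ Z]
    [FiniteDimensional ℝ Z] (sg : Bs EB U × Z → Bs EB U) (w : Bs EB U × (Z × Z) → ℝ),
    IsAdm (prodRep β ρ) (QtOf U B) a ρ F → IsBarC B φ₀ a F →
    IsStr (prodRep β ρ) (QtOf U B) sg w →
    IsAdm (prodRep β ρ) (QtOf U B) a (stRep Z ρ) (strF sg w F) →
    IsRigid (QtOf U B) a (strF sg w F) →
    (∀ z ∈ QtOf U B, ∀ X : St U Z, dV (strF sg w F) z X = 0 →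
      (|strF sg w F (z, X)| < a ↔ |F (sg (z, X.snd.fst), X.fst)| < a)) → False

/-- an isotopy of `U` that carries the domain of `φ₀` to the domains of the path -/
structure IsIso (φ₀ : U → ℝ) (ψ : ℝ × U → ℝ) (Θ Θ' : ℝ × U → U) : Prop where
  sm : ContDiff ℝ ∞ Θ
  sm' : ContDiff ℝ ∞ Θ'
  zero : ∀ x, Θ (0, x) = x
  left : ∀ t x, Θ' (t, Θ (t, x)) = x
  right : ∀ t x, Θ (t, Θ' (t, x)) = x
  far : ∃ R, ∀ t x, R ≤ ‖x‖ → Θ (t, x) = x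
  lt : ∀ t x, φ₀ x < 0 → ψ (t, Θ (t, x)) < 0
  gt : ∀ t x, 0 < φ₀ x → 0 < ψ (t, Θ (t, x))
  col : ∀ R : ℝ, ∃ δ > 0, ∀ t x, ‖x‖ ≤ R → |φ₀ x| ≤ δ → ψ (t, Θ (t, x)) = φ₀ x

/-- fibre diffeomorphisms that carry the domain of `φ₀` to the domains of the family `φ` -/
structure IsTriv (β : G →* (EB ≃ₗᵢ[ℝ] EB)) (B : Set EB) (ρ : G →* (U ≃ₗᵢ[ℝ] U))
    (φ : EB × U → ℝ) (φ₀ : U → ℝ) (Ψ Ψ' : EB × U → U) : Prop where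
  sm : ContDiff ℝ ∞ Ψ
  sm' : ContDiff ℝ ∞ Ψ'
  left : ∀ b ∈ B, ∀ x, Ψ' (b, Ψ (b, x)) = x
  right : ∀ b ∈ B, ∀ x, Ψ (b, Ψ' (b, x)) = x
  equi : ∀ g, ∀ b ∈ B, ∀ x, Ψ (β g b, ρ g x) = ρ g (Ψ (b, x))
  far : ∃ R, ∀ b ∈ B, ∀ x, R ≤ ‖x‖ → Ψ (b, x) = x
  lt : ∀ b ∈ B, ∀ x, φ₀ x < 0 → φ (b, Ψ (b, x)) < 0
  gt : ∀ b ∈ B, ∀ x, 0 < φ₀ x → 0 < φ (b, Ψ (b, x))
  col : ∀ R : ℝ, ∃ δ > 0, ∀ b ∈ B, ∀ x, ‖x‖ ≤ R → |φ₀ x| ≤ δ → φ (b, Ψ (b, x)) = φ₀ x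

/-- An invariant function `s` on the free `G`-space `B`, and a function `τ` whose support is
disjoint from its translates and which is `1` at one point of each critical orbit of `s`. -/
structure IsLab (β : G →* (EB ≃ₗᵢ[ℝ] EB)) (B : Set EB) (s τ : EB → ℝ) : Prop where
  act : ∀ g, ∀ b ∈ B, β g b ∈ B
  free : ∀ g, ∀ b ∈ B, β g b = b → g = 1
  ss : ContDiff ℝ ∞ s
  sτ : ContDiff ℝ ∞ τ
  invs : ∀ g, ∀ b ∈ B, s (β g b) = s b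
  mem : ∀ b, τ b ∈ Icc (0 : ℝ) 1
  disj : ∀ g, ∀ b ∈ B, τ b ≠ 0 → τ (β g b) ≠ 0 → g = 1
  crit : ∀ b ∈ B, (∀ u ∈ Tan B b, fderiv ℝ s b u = 0) → ∃ g, τ (β g b) = 1
  ex : ∃ b ∈ B, τ b = 1

end

/-- ISO: a path of domains is given by an isotopy, after a change of the parameter. -/
def StIso : Prop :=
  ∀ (U : Type) [NormedAddCommGroup U] [InnerProductSpace ℝ U] [FiniteDimensional ℝ U]
    (φ₀ φ₁ : U → ℝ), Joined φ₀ φ₁ → ∃ ψ Θ Θ', IsPath φ₀ φ₁ ψ ∧ IsIso φ₀ ψ Θ Θ'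

/-- SPREAD: the family of domains over the base, and its trivialisation. -/
def StSpread : Prop :=
  ∀ (G : Type) [Group G] [Fintype G] (EB : Type) [NormedAddCommGroup EB] [InnerProductSpace ℝ EB]
    (U : Type) [NormedAddCommGroup U] [InnerProductSpace ℝ U] (β : G →* (EB ≃ₗᵢ[ℝ] EB))
    (ρ : G →* (U ≃ₗᵢ[ℝ] U)) (B : Set EB) (s τ : EB → ℝ) (φ₀ : U → ℝ) (ψ : ℝ × U → ℝ)
    (Θ Θ' : ℝ × U → U), IsLab β B s τ → (∀ g x, φ₀ (ρ g x) = φ₀ x) →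
    IsPath φ₀ (fun x => ‖x‖ ^ 2 - 1) ψ → IsIso φ₀ ψ Θ Θ' →
    ∃ φ Ψ Ψ', IsDom β B ρ φ s ∧ IsTriv β B ρ φ φ₀ Ψ Ψ'

/-- PULL: a generating family is pulled back by fibre diffeomorphisms. -/
def StPull : Prop :=
  ∀ (G : Type) [Group G] (E : Type) [NormedAddCommGroup E] [InnerProductSpace ℝ E]
    [FiniteDimensional ℝ E] (E' : Type) [NormedAddCommGroup E'] [InnerProductSpace ℝ E']
    (V : Type) [NormedAddCommGroup V] [InnerProductSpace ℝ V] [FiniteDimensional ℝ V]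
    (α : G →* (E ≃ₗᵢ[ℝ] E)) (ρ : G →* (V ≃ₗᵢ[ℝ] V)) (Qt : Set E) (P : E → E') (L : Set (E' × E'))
    (a m R : ℝ) (F : E × V → ℝ) (Φ Φ' : E × V → V), ContDiff ℝ ∞ Φ → ContDiff ℝ ∞ Φ' →
    (∀ b ∈ Qt, ∀ x, Φ' (b, Φ (b, x)) = x) → (∀ b ∈ Qt, ∀ x, Φ (b, Φ' (b, x)) = x) →
    (∀ g, ∀ b ∈ Qt, ∀ x, Φ (α g b, ρ g x) = ρ g (Φ (b, x))) →
    (∀ b ∈ Qt, ∀ x, R ≤ ‖x‖ → Φ (b, x) = x) → IsAdm α Qt a ρ F → IsGen Qt P L a m F →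
    IsAdm α Qt a ρ (fun y => F (y.1, Φ y)) ∧ IsGen Qt P L a m fun y => F (y.1, Φ y)

/-- B5: the base `S³ × S¹⁷`. -/
def StB5 : Prop :=
  IsClosedManifold 20 Def.B5 ∧ ∃ s τ, IsLab Def.β5 Def.B5 s τ

/-- The obstruction: an invariant domain, joined to the unit ball, without rigid stabilisation. -/
def StObsC : Prop :=
  ∃ (U : Type) (_ : NormedAddCommGroup U) (_ : InnerProductSpace ℝ U) (_ : FiniteDimensional ℝ U)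
    (ρ : Def.G5 →* (U ≃ₗᵢ[ℝ] U)) (k : ℕ) (φ₀ : U → ℝ), Module.finrank ℝ U = k + 2 ∧
    (∀ g x, φ₀ (ρ g x) = φ₀ x) ∧ Joined φ₀ (fun x => ‖x‖ ^ 2 - 1) ∧ NoRigidC Def.β5 Def.B5 ρ φ₀

end Vale.Agent.P220Z.Top
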