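import Vale.Agent.P220Z.Hs.All
import Vale.Agent.P220Z.Top.All
import Vale.Agent.P220Z.Top.Bridge
import Vale.Agent.P220Z.Per.Struct
import Vale.Agent.P220Z.Def.All
import Vale.Agent.P220Z.Top.Gen
import Vale.Agent.P220.R2.H180.Slice

/-!
# P220: the counterexample from Theorem A
-/

namespace Vale.Agent.P220Z.Top

open Vale.Agent.P220.R2.H57

theorem isotropic {E : Type} [NormedAddCommGroup E] [InnerProductSpace ℝ E] [FiniteDimensional ℝ E]
    {n : ℕ} {Q : Set E} {L : Set (E × E)} (h : IsExactLagrangian n Q L) :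
    ∀ z ∈ L, ∀ u ∈ Tan L z, ∀ v ∈ Tan L z, om u v = 0 := by
  obtain ⟨U, r, hr, -⟩ := exists_ret h.closed.sub h.closed.compact
  obtain ⟨f, hf, hex⟩ := h.exact
  intro z hz u hu v hv
  exact sub_eq_zero.2 (Vale.Agent.P220.R2.H180.isotropic hr hf
    (fun z hz v hv => hex z hz v ((hr.mem_Tan hz).2 hv)) hz ((hr.mem_Tan hz).1 hu)
    ((hr.mem_Tan hz).1 hv))

theorem counter_of_A (hA : StThA) :
    ∃ (N n : ℕ) (Q : Set (EuclideanSpace ℝ (Fin N)))
      (L : Set (EuclideanSpace ℝ (Fin N) × EuclideanSpace ℝ (Fin N))),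
      IsClosedManifold n Q ∧ IsExactLagrangian n Q L ∧
        (∀ z ∈ L, ∀ u ∈ Tan L z, ∀ v ∈ Tan L z, om u v = 0) ∧ ¬ HamIsoG Q L := by
  obtain ⟨N, n, Q, L, h1, h2, h3⟩ := counter Per.stStruct Def.stTool stBridge hA Hs.stThB
  exact ⟨N, n, Q, L, h1, h2, isotropic h2, fun h => h3 (h.toZero h1)⟩

end Vale.Agent.P220Z.Top
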