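import Vale.Agent.P220Z.Top.Defs

/-!
# P220: the counterexample from the construction, persistence and the obstruction
-/

open Set Filter
open scoped ContDiff RealInnerProductSpace Topology

namespace Vale.Agent.P220Z.Top

open Vale.Agent.P220.R2.H57 Vale.Agent.P220Z.Per Vale.Agent.P220Z.Cn

theorem lag_congr {E : Type} [NormedAddCommGroup E] [InnerProductSpace ℝ E]
    {E' : Type} [NormedAddCommGroup E'] [InnerProductSpace ℝ E']
    {V : Type} [NormedAddCommGroup V] [InnerProductSpace ℝ V] {Qt : Set E} {Q : Set E'}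
    {P : E → E'} {S : Set (E × V)} {F F₀ : E × V → ℝ}
    (h : ∀ y ∈ S, fderiv ℝ F y = fderiv ℝ F₀ y) : Lag Qt Q P S F = Lag Qt Q P S F₀ := by
  ext z
  refine exists_congr fun y => and_congr_right fun hy => and_congr_right fun _ =>
    and_congr_right fun _ => ?_
  unfold Cov
  rw [h (y.1, y.2) hy]

theorem stCoverE (hq : StQuot) (hI : StImg) : StCoverE := by
  intro G _ _ E _ _ _ α n Qt hQt hact hfree
  obtain ⟨E', _, _, _, P, hP, hinv, hsep, himm⟩ := hq G E α Qt hQt.compact hact hfree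
  let e := (stdOrthonormalBasis ℝ E').repr
  have hP' : ContDiff ℝ ∞ (fun x => e (P x)) := e.contDiff.comp hP
  have hinv' : ∀ g x, e (P (α g x)) = e (P x) := fun g x => by rw [hinv]
  have hsep' : ∀ x ∈ Qt, ∀ x' ∈ Qt, e (P x) = e (P x') → ∃ g, α g x' = x :=
    fun x hx x' hx' h => hsep x hx x' hx' (e.injective h)
  have himm' : ∀ x ∈ Qt, ∀ u, fderiv ℝ (fun x => e (P x)) x u = 0 → u = 0 := by
    intro x hx u hu
    refine himm x hx u (e.injective ?_)
    have h := (e.toContinuousLinearEquiv.toContinuousLinearMap.hasFDerivAt.comp x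
      (hP.differentiable (by simp) x).hasFDerivAt).fderiv
    have h' : fderiv ℝ (fun x => e (P x)) x u = e (fderiv ℝ P x u) := by
      change fderiv ℝ (e.toContinuousLinearEquiv.toContinuousLinearMap ∘ P) x u = _
      rw [h]
      rfl
    rw [← h', hu, map_zero]
  obtain ⟨h1, h2, -⟩ := hI G E _ (fun g => α g) n Qt (fun x => e (P x)) hQt.sub hQt.compact hP'
    (fun g => (α g).continuous) hact (fun g x _ => hinv' g x) hsep' fun x hx u _ => himm' x hx u
  have hc : IsCompact ((fun x => e (P x)) '' Qt) := hQt.compact.image hP'.continuous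
  refine ⟨_, (fun x => e (P x)) '' Qt, fun x => e (P x),
    ⟨(exists_ret hQt.sub hQt.compact).imp fun _ h => h.imp fun _ h => h.1, hQt.compact,
      (exists_ret h1 hc).imp fun _ h => h.imp fun _ h => h.1, hc, hP',
      fun b hb => mem_image_of_mem _ hb, fun b hb u _ => himm' b hb u, h2, hact,
      fun g b _ => hinv' g b⟩,
    ⟨h1, hc, hQt.conn.image _ hP'.continuous.continuousOn⟩, hsep'⟩

theorem counter_of (hb : StBase) (hq : StCoverE) (hs : StSig) (hl : StLag) (hf : StFam)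
    (hp : StStruct) (ho : StObs) :
    ∃ (N n : ℕ) (Q : Set (EuclideanSpace ℝ (Fin N)))
      (L : Set (EuclideanSpace ℝ (Fin N) × EuclideanSpace ℝ (Fin N))),
      IsClosedManifold n Q ∧ IsExactLagrangian n Q L ∧ ¬ HamIsotopicToZero Q L := by
  obtain ⟨G, _, _, EB, _, _, _, U, _, _, _, β, ρ, m, k, B, φ, s, hB, hU, hD, hN⟩ := ho
  have hQt := hb EB U m k B hB hU
  have hact : ∀ g, ∀ z ∈ QtOf U B, prodRep β ρ g z ∈ QtOf U B := fun g z hz =>
    ⟨hD.act g _ hz.1, ((ρ g).norm_map z.snd).trans hz.2⟩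
  have hfree : ∀ g, ∀ z ∈ QtOf U B, prodRep β ρ g z = z → g = 1 := fun g z hz h =>
    hD.free g _ hz.1 (congrArg WithLp.fst h)
  obtain ⟨N, Q, P, hc, hQ, hsep⟩ := hq G _ (prodRep β ρ) _ _ hQt hact hfree
  obtain ⟨S, F₀, hS, hF⟩ := hf G EB U β ρ m k B φ s hB hU hD
  have key : ∀ (a C : ℝ) (F : Bs EB U × U → ℝ), IsAdm (prodRep β ρ) (QtOf U B) a ρ F →
      IsPre (QtOf U B) a C F → Sig (QtOf U B) a F = S → (∀ y ∈ S, fderiv ℝ F y = fderiv ℝ F₀ y) →
      IsExactLagrangian (m + (k + 1)) Q (Lag (QtOf U B) Q P S F₀) ∧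
        IsGen (QtOf U B) P (Lag (QtOf U B) Q P S F₀) a C F := by
    intro a C F hA hpre hsig hd
    obtain ⟨h1, h2⟩ := hs G _ U (prodRep β ρ) ρ _ _ a C F hQt.sub hQt.compact hA hpre
    obtain ⟨h3, h4, h5⟩ := hl G _ _ U (prodRep β ρ) ρ _ _ Q P a C F hc hsep hA hpre h1 h2
      (hsig ▸ hS.nonempty)
    rw [hsig, lag_congr hd] at h3 h4 h5
    exact ⟨⟨⟨h3.mfd, h3.compact, h5 hS⟩, h3.sub, h3.exact⟩, h4⟩
  obtain ⟨a₀, F₁, hA₁, hp₁, hs₁, hd₁, -⟩ := hF 0
  refine ⟨N, _, Q, _, hQ, (key a₀ 0 F₁ hA₁ hp₁ hs₁ hd₁).1, fun hH => ?_⟩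
  obtain ⟨C, hC⟩ := hp G _ _ (prodRep β ρ) _ Q P _ hc hH
  obtain ⟨a, F, hA, hpre, hsig, hd, hbar⟩ := hF C
  obtain ⟨Z, _, _, _, sg, w, h1, h2, h3, h4⟩ := hC a U ρ F hA (key a C F hA hpre hsig hd).2
  exact hN a F Z sg w hA hbar h1 h2 h3 h4

end Vale.Agent.P220Z.Top
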