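import Vale.Agent.P220Z.Top.Defs2
import Vale.Agent.P220Z.Top.Sk

/-!
# P220: the counterexample from the obstruction for a constant domain
-/

open Set Filter
open scoped ContDiff RealInnerProductSpace Topology

namespace Vale.Agent.P220Z.Top

open Vale.Agent.P220.R2.H57 Vale.Agent.P220Z.Per Vale.Agent.P220Z.Cn

section

variable {G : Type} [Group G]
  {EB : Type} [NormedAddCommGroup EB] [InnerProductSpace ℝ EB]
  {U : Type} [NormedAddCommGroup U] [InnerProductSpace ℝ U] [FiniteDimensional ℝ U]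

theorem exists_pos_lower {X : Type} [TopologicalSpace X] {K : Set X} (hK : IsCompact K)
    {f : X → ℝ} (hf : Continuous f) (h : ∀ x ∈ K, 0 < f x) : ∃ m > 0, ∀ x ∈ K, m ≤ f x := by
  rcases K.eq_empty_or_nonempty with rfl | hne
  · exact ⟨1, one_pos, fun _ h => h.elim⟩
  · obtain ⟨x, hx, hm⟩ := hK.exists_isMinOn hne hf.continuousOn
    exact ⟨f x, h x hx, fun y hy => hm hy⟩

theorem isBarC_pull {β : G →* (EB ≃ₗᵢ[ℝ] EB)} {B : Set EB} {ρ : G →* (U ≃ₗᵢ[ℝ] U)}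
    {φ : EB × U → ℝ} {φ₀ : U → ℝ} {Ψ Ψ' : EB × U → U} {a : ℝ} {F : Bs EB U × U → ℝ}
    (hB : IsCompact B) (hne : B.Nonempty) (hφ : Continuous φ) (hT : IsTriv β B ρ φ φ₀ Ψ Ψ')
    (h : IsBar B φ a F) : IsBarC B φ₀ a fun y => F (y.1, Ψ (y.1.fst, y.2)) where
  low z hz x := h.low z hz _
  lt z hz x hx := h.lt z hz _ (hT.lt _ hz.1 x hx)
  gt z hz x hx := h.gt z hz _ (hT.gt _ hz.1 x hx)
  col := by
    obtain ⟨δ, hδ, κ, hκ, R, hR, hc⟩ := h.col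
    obtain ⟨R₁, hR₁⟩ := hT.far
    obtain ⟨b₀, hb₀⟩ := hne
    have hpos : ∀ x, max R R₁ ≤ ‖x‖ → 0 < φ₀ x := by
      intro x hx
      have h1 : 0 < φ (b₀, Ψ (b₀, x)) := by
        rw [hR₁ b₀ hb₀ x ((le_max_right _ _).trans hx)]
        exact hR b₀ hb₀ x ((le_max_left _ _).trans hx)
      rcases lt_trichotomy (φ₀ x) 0 with h2 | h2 | h2
      · exact absurd (hT.lt b₀ hb₀ x h2) h1.le.not_gt
      · obtain ⟨d, hd, hd'⟩ := hT.col ‖x‖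
        rw [hd' b₀ hb₀ x le_rfl (by rw [h2, abs_zero]; exact hd.le), h2] at h1
        exact absurd h1 (lt_irrefl _)
      · exact h2
    obtain ⟨d, hd, hd'⟩ := hT.col (max R R₁ + 1)
    have hK : IsCompact ((B ×ˢ Metric.closedBall (0 : U) (max R R₁ + 1)) ∩
        {y | R + 1 ≤ ‖Ψ y‖}) :=
      (hB.prod (isCompact_closedBall _ _)).inter_right
        (isClosed_le continuous_const hT.sm.continuous.norm)
    obtain ⟨m, hm, hm'⟩ := exists_pos_lower hK (f := fun y => φ (y.1, Ψ y))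
      (hφ.comp (continuous_fst.prodMk hT.sm.continuous))
      fun y hy => hR _ hy.1.1 _ (le_trans (by linarith) hy.2)
    refine ⟨min (min δ d) (m / 2), by positivity, κ, hκ, max R R₁, hpos, fun z hz x hx hφx => ?_⟩
    have h1 : |φ₀ x| ≤ δ := hφx.trans ((min_le_left _ _).trans (min_le_left _ _))
    have h2 : |φ₀ x| ≤ d := hφx.trans ((min_le_left _ _).trans (min_le_right _ _))
    have h3 : |φ₀ x| ≤ m / 2 := hφx.trans (min_le_right _ _)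
    have h4 := hd' _ hz.1 x hx h2
    have h5 : ‖Ψ (z.fst, x)‖ ≤ R + 1 := by
      by_contra h6
      have h7 := hm' (z.fst, x) ⟨⟨hz.1, mem_closedBall_zero_iff.2 hx⟩, (not_le.1 h6).le⟩
      simp only at h7
      rw [h4] at h7
      linarith [le_abs_self (φ₀ x)]
    change F (z, Ψ (z.fst, x)) = _
    rw [hc z _ h5 (by rw [h4]; exact (abs_le.1 h1).1), h4]

end

theorem counter_of2 (hb : StBase) (hq : StCoverE) (hs : StSig) (hl : StLag) (hf : StFam)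
    (hi : StIso) (hsp : StSpread) (hpl : StPull) (h5 : StB5) (hp : StStruct) (ho : StObsC) :
    ∃ (N n : ℕ) (Q : Set (EuclideanSpace ℝ (Fin N)))
      (L : Set (EuclideanSpace ℝ (Fin N) × EuclideanSpace ℝ (Fin N))),
      IsClosedManifold n Q ∧ IsExactLagrangian n Q L ∧ ¬ HamIsotopicToZero Q L := by
  obtain ⟨U, _, _, _, ρ, k, φ₀, hU, hinv, hJ, hN⟩ := ho
  obtain ⟨hB, s, τ, hlab⟩ := h5
  obtain ⟨ψ, Θ, Θ', hψ, hΘ⟩ := hi U _ _ hJ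
  obtain ⟨φ, Ψ, Ψ', hD, hT⟩ := hsp Def.G5 Def.EB5 U Def.β5 ρ Def.B5 s τ φ₀ ψ Θ Θ' hlab hinv hψ hΘ
  have hQt := hb Def.EB5 U 20 k Def.B5 hB hU
  have hact : ∀ g, ∀ z ∈ QtOf U Def.B5, prodRep Def.β5 ρ g z ∈ QtOf U Def.B5 := fun g z hz =>
    ⟨hD.act g _ hz.1, ((ρ g).norm_map z.snd).trans hz.2⟩
  have hfree : ∀ g, ∀ z ∈ QtOf U Def.B5, prodRep Def.β5 ρ g z = z → g = 1 := fun g z hz h =>
    hD.free g _ hz.1 (congrArg WithLp.fst h)
  obtain ⟨N, Q, P, hc, hQ, hsep⟩ := hq Def.G5 _ (prodRep Def.β5 ρ) _ _ hQt hact hfree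
  obtain ⟨S, F₀, hS, hF⟩ := hf Def.G5 Def.EB5 U Def.β5 ρ 20 k Def.B5 φ s hB hU hD
  have key : ∀ (a C : ℝ) (F : Bs Def.EB5 U × U → ℝ),
      IsAdm (prodRep Def.β5 ρ) (QtOf U Def.B5) a ρ F → IsPre (QtOf U Def.B5) a C F →
      Sig (QtOf U Def.B5) a F = S → (∀ y ∈ S, fderiv ℝ F y = fderiv ℝ F₀ y) →
      IsExactLagrangian (20 + (k + 1)) Q (Lag (QtOf U Def.B5) Q P S F₀) ∧
        IsGen (QtOf U Def.B5) P (Lag (QtOf U Def.B5) Q P S F₀) a C F := by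
    intro a C F hA hpre hsig hd
    obtain ⟨h1, h2⟩ := hs Def.G5 _ U (prodRep Def.β5 ρ) ρ _ _ a C F hQt.sub hQt.compact hA hpre
    obtain ⟨h3, h4, h5⟩ := hl Def.G5 _ _ U (prodRep Def.β5 ρ) ρ _ _ Q P a C F hc hsep hA hpre h1 h2
      (hsig ▸ hS.nonempty)
    rw [hsig, lag_congr hd] at h3 h4 h5
    exact ⟨⟨⟨h3.mfd, h3.compact, h5 hS⟩, h3.sub, h3.exact⟩, h4⟩
  obtain ⟨a₀, F₁, hA₁, hp₁, hs₁, hd₁, -⟩ := hF 0
  refine ⟨N, _, Q, _, hQ, (key a₀ 0 F₁ hA₁ hp₁ hs₁ hd₁).1, fun hH => ?_⟩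
  obtain ⟨C, hC⟩ := hp Def.G5 _ _ (prodRep Def.β5 ρ) _ Q P _ hc hH
  obtain ⟨a, F, hA, hpre, hsig, hd, hbar⟩ := hF C
  obtain ⟨R, hR⟩ := hT.far
  have hfst : ContDiff ℝ ∞ fun y : Bs Def.EB5 U × U => (y.1.fst, y.2) :=
    ((WithLp.fstL 2 ℝ Def.EB5 U).contDiff.comp contDiff_fst).prodMk contDiff_snd
  obtain ⟨hA', hG'⟩ := hpl Def.G5 _ _ U (prodRep Def.β5 ρ) ρ _ P _ a C R F
    (fun y => Ψ (y.1.fst, y.2)) (fun y => Ψ' (y.1.fst, y.2)) (hT.sm.comp hfst) (hT.sm'.comp hfst)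
    (fun z hz x => hT.left _ hz.1 x) (fun z hz x => hT.right _ hz.1 x)
    (fun g z hz x => hT.equi g _ hz.1 x) (fun z hz x hx => hR _ hz.1 x hx) hA
    (key a C F hA hpre hsig hd).2
  obtain ⟨Z, _, _, _, sg, w, h1, h2, h3, h4⟩ := hC a U ρ _ hA' hG'
  exact hN a _ Z sg w hA' (isBarC_pull hB.compact hB.conn.nonempty hD.sφ.continuous hT hbar)
    h1 h2 h3 h4

end Vale.Agent.P220Z.Top
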